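import Mathlib

/-!
# A Bernstein-type inequality at the origin, by interpolation at the Chebyshev extrema

For an odd `m = 2 * k + 1` the extrema `x_i = cos (i π / m)` (`0 ≤ i ≤ m`) of the Chebyshev
polynomial `T_m` are the roots of `V = (X ^ 2 - 1) * T_m'`.  Lagrange interpolation at these
nodes gives, for every polynomial `Q` of degree at most `m` with `Q 0 = 0`,
`Q' 0 = - ∑ i, V 0 / (V' x_i * x_i ^ 2) * Q x_i`, with weights of alternating sign whose
absolute values add up to `m`.
-/

namespace Vale.Agent.Helper17.GS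

open Polynomial Real
open Polynomial.Chebyshev

/-- The polynomial `(X ^ 2 - 1) * T_m'`, whose roots are the extrema of `T_m` on `[-1, 1]`. -/
noncomputable def vPoly (m : ℕ) : ℝ[X] := (X ^ 2 - 1) * derivative (T ℝ m)

theorem vPoly_derivative (m : ℕ) :
    derivative (vPoly m) = X * derivative (T ℝ m) + (m : ℝ[X]) ^ 2 * T ℝ m := by
  have h := one_sub_X_sq_mul_derivative_derivative_T_eq_poly_in_T (R := ℝ) (m : ℤ)
  rw [Function.iterate_succ, Function.iterate_one, Function.comp_apply] at h
  unfold vPoly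
  simp only [derivative_mul, derivative_sub, derivative_X_pow, derivative_one, sub_zero]
  push_cast at h ⊢
  have hC : (Polynomial.C (2 : ℝ) : ℝ[X]) = 2 := map_ofNat Polynomial.C 2
  rw [hC]
  linear_combination (-1 : ℝ[X]) * h

theorem T_deriv_node (m i : ℕ) (hi0 : 0 < i) (him : i < m) :
    (derivative (T ℝ m)).eval (node m i) = 0 := by
  have hm : (0 : ℝ) < m := by exact_mod_cast (lt_of_le_of_lt (Nat.zero_le i) him)
  have hi : (0 : ℝ) < i := by exact_mod_cast hi0
  have hθ0 : 0 < (i : ℝ) * π / m := by positivity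
  have hθπ : (i : ℝ) * π / m < π := by
    rw [div_lt_iff₀ hm]
    have : (i : ℝ) < m := by exact_mod_cast him
    nlinarith [pi_pos]
  have hsin : 0 < sin ((i : ℝ) * π / m) := sin_pos_of_pos_of_lt_pi hθ0 hθπ
  have hU := U_real_cos ((i : ℝ) * π / m) ((m : ℤ) - 1)
  have h2 : ((((m : ℤ) - 1 : ℤ) : ℝ) + 1) * ((i : ℝ) * π / m) = i * π := by
    push_cast
    field_simp
    ring
  rw [h2, sin_nat_mul_pi] at hU
  have h3 : (U ℝ ((m : ℤ) - 1)).eval (cos ((i : ℝ) * π / m)) = 0 := by
    rcases mul_eq_zero.mp hU with h | h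
    · exact h
    · exact absurd h hsin.ne'
  rw [T_derivative_eq_U]
  unfold node
  rw [eval_mul, h3, mul_zero]

theorem T_deriv_one (m : ℕ) : (derivative (T ℝ m)).eval 1 = (m : ℝ) ^ 2 := by
  rw [T_derivative_eq_U, eval_mul, U_eval_one]
  simp
  ring

theorem T_deriv_neg_one (m : ℕ) (hm : Odd m) : (derivative (T ℝ m)).eval (-1) = (m : ℝ) ^ 2 := by
  have he : Even ((m : ℤ) - 1) := by
    obtain ⟨k, hk⟩ := hm
    exact ⟨k, by rw [hk]; push_cast; ring⟩
  rw [T_derivative_eq_U, eval_mul, U_eval_neg_one, Int.negOnePow_even _ he]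
  simp
  ring

theorem T_neg_one_odd (m : ℕ) (hm : Odd m) : (T ℝ m).eval (-1) = -1 := by
  have ho : Odd (m : ℤ) := by exact_mod_cast hm
  rw [T_eval_neg_one, Int.negOnePow_odd _ ho]
  simp

theorem T_zero_odd (m : ℕ) (hm : Odd m) : (T ℝ m).eval 0 = 0 := by
  have ho : Odd (m : ℤ) := by exact_mod_cast hm
  exact T_eval_zero_of_odd ℝ ho

/-- The value `U_{m-1}(0) = ±1` for odd `m`. -/
noncomputable def uSign (m : ℕ) : ℝ := (U ℝ ((m : ℤ) - 1)).eval 0

theorem uSign_sq (m : ℕ) (hm : Odd m) : uSign m * uSign m = 1 := by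
  have he : Even ((m : ℤ) - 1) := by
    obtain ⟨k, hk⟩ := hm
    exact ⟨k, by rw [hk]; push_cast; ring⟩
  unfold uSign
  rw [U_eval_zero_of_even ℝ he]
  rcases Int.units_eq_one_or (((m : ℤ) - 1) / 2).negOnePow with h | h <;> rw [h] <;> simp

theorem T_deriv_zero (m : ℕ) : (derivative (T ℝ m)).eval 0 = m * uSign m := by
  rw [T_derivative_eq_U, eval_mul]
  unfold uSign
  simp

theorem node_ne_zero (m i : ℕ) (hm : Odd m) (hi : i ≤ m) : node m i ≠ 0 := by
  intro h
  have h1 := eval_T_real_node (n := m) (i := i) (Finset.mem_Iic.mpr hi)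
  rw [h, T_zero_odd m hm] at h1
  have h2 : ((-1 : ℝ)) ^ i ≠ 0 := pow_ne_zero _ (by norm_num)
  exact h2 h1.symm

theorem vPoly_eval_zero (m : ℕ) : (vPoly m).eval 0 = -(m * uSign m) := by
  unfold vPoly
  rw [eval_mul, T_deriv_zero]
  simp

theorem vPoly_eval_node (m i : ℕ) (hi : i ≤ m) (hm : m ≠ 0) : (vPoly m).eval (node m i) = 0 := by
  unfold vPoly
  rw [eval_mul]
  rcases Nat.eq_zero_or_pos i with h0 | h0
  · subst h0
    rw [node_eq_one]
    simp
  · rcases Nat.lt_or_ge i m with h1 | h1
    · rw [T_deriv_node m i h0 h1, mul_zero]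
    · have : i = m := le_antisymm hi h1
      subst this
      rw [node_eq_neg_one hm]
      simp

/-- The derivative of `V` at a node, with its sign: `(-1)^i V'(x_i)` equals `m^2` at the interior
nodes and `2 m^2` at the two end nodes. -/
theorem vPoly_derivative_node_interior (m i : ℕ) (hi0 : 0 < i) (him : i < m) :
    (derivative (vPoly m)).eval (node m i) = (m : ℝ) ^ 2 * (-1) ^ i := by
  rw [vPoly_derivative, eval_add, eval_mul, eval_mul, T_deriv_node m i hi0 him,
    eval_T_real_node (Finset.mem_Iic.mpr him.le)]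
  simp

theorem vPoly_derivative_node_first (m : ℕ) :
    (derivative (vPoly m)).eval (node m 0) = 2 * (m : ℝ) ^ 2 * (-1) ^ 0 := by
  rw [vPoly_derivative, node_eq_one, eval_add, eval_mul, eval_mul, T_deriv_one, T_eval_one]
  simp
  ring

theorem vPoly_derivative_node_last (m : ℕ) (hm : Odd m) :
    (derivative (vPoly m)).eval (node m m) = 2 * (m : ℝ) ^ 2 * (-1) ^ m := by
  have hm0 : m ≠ 0 := by
    rintro rfl
    exact absurd hm (by decide)
  rw [vPoly_derivative, node_eq_neg_one hm0, eval_add, eval_mul, eval_mul, T_deriv_neg_one m hm,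
    T_neg_one_odd m hm, hm.neg_one_pow]
  simp
  ring


theorem node_injOn (m : ℕ) :
    Set.InjOn (fun i => node m i) (Finset.range (m + 1) : Set ℕ) :=
  (strictAntiOn_node m).injOn

theorem vPoly_degree (m : ℕ) (hm : m ≠ 0) : (vPoly m).degree = ((m + 1 : ℕ) : WithBot ℕ) := by
  have h1 : ((X : ℝ[X]) ^ 2 - 1).degree = ((2 : ℕ) : WithBot ℕ) := by
    have h := degree_X_pow_sub_C (R := ℝ) (n := 2) (by norm_num) 1
    simpa using h
  have hT : (T ℝ (m : ℤ)).natDegree = m := by
    rw [natDegree_T]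
    simp
  have h2 : (derivative (T ℝ (m : ℤ))).degree = ((m - 1 : ℕ) : WithBot ℕ) := by
    rw [degree_derivative (by rw [hT]; exact hm), hT]
  unfold vPoly
  rw [degree_mul, h1, h2, ← Nat.cast_add]
  congr 1
  omega

/-- The nodal polynomial of the Chebyshev extrema is proportional to `V`. -/
theorem vPoly_eq_nodal (m : ℕ) (hm : m ≠ 0) :
    vPoly m = Polynomial.C (vPoly m).leadingCoeff
      * Lagrange.nodal (Finset.range (m + 1)) (fun i => node m i) := by
  have hV0 : vPoly m ≠ 0 := by
    intro h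
    have hd := vPoly_degree m hm
    rw [h, degree_zero] at hd
    exact WithBot.bot_ne_coe hd
  have hlc : (vPoly m).leadingCoeff ≠ 0 := leadingCoeff_ne_zero.mpr hV0
  have hWmonic : (Lagrange.nodal (Finset.range (m + 1)) (fun i => node m i)).Monic :=
    Lagrange.nodal_monic
  have hdegW : (Polynomial.C (vPoly m).leadingCoeff
      * Lagrange.nodal (Finset.range (m + 1)) (fun i => node m i)).degree
        = ((m + 1 : ℕ) : WithBot ℕ) := by
    rw [degree_C_mul hlc, Lagrange.degree_nodal, Finset.card_range]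
  refine eq_of_degree_sub_lt_of_eval_index_eq (Finset.range (m + 1)) (node_injOn m) ?_ ?_
  · have h := degree_sub_lt_left (p := vPoly m)
      (q := Polynomial.C (vPoly m).leadingCoeff
        * Lagrange.nodal (Finset.range (m + 1)) (fun i => node m i))
      (by rw [hdegW, vPoly_degree m hm]) hV0
      (by rw [leadingCoeff_mul, leadingCoeff_C, hWmonic.leadingCoeff, mul_one])
    rw [vPoly_degree m hm] at h
    rw [Finset.card_range]
    exact h
  · intro i hi
    rw [vPoly_eval_node m i (Nat.lt_succ_iff.mp (Finset.mem_range.mp hi)) hm, eval_mul,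
      Lagrange.eval_nodal_at_node hi, mul_zero]

/-- Interpolation formula for the derivative at the origin. -/
theorem deriv_zero_formula (m : ℕ) (hm : Odd m) (Q : ℝ[X]) (hdeg : Q.natDegree ≤ m)
    (h0 : Q.eval 0 = 0) :
    (derivative Q).eval 0 = - ∑ i ∈ Finset.range (m + 1),
      (vPoly m).eval 0 / (derivative (vPoly m)).eval (node m i)
        * (Q.eval (node m i) / (node m i) ^ 2) := by
  have hm0 : m ≠ 0 := by
    rintro rfl
    exact absurd hm (by decide)
  obtain ⟨R, hR⟩ : X ∣ Q := X_dvd_iff.mpr (by rw [coeff_zero_eq_eval_zero, h0])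
  have hRdeg : R.degree < ((Finset.range (m + 1)).card : WithBot ℕ) := by
    rw [Finset.card_range]
    by_cases hR0 : R = 0
    · rw [hR0, degree_zero]
      exact WithBot.bot_lt_coe _
    · have h1 : R.natDegree + 1 ≤ m := by
        rw [← natDegree_X_mul hR0, ← hR]
        exact hdeg
      calc R.degree ≤ (R.natDegree : WithBot ℕ) := degree_le_natDegree
        _ < ((m + 1 : ℕ) : WithBot ℕ) := by
            exact_mod_cast (by omega : R.natDegree < m + 1)
  have hint := Lagrange.eq_interpolate (node_injOn m) hRdeg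
  have hne : ∀ i ∈ Finset.range (m + 1), (0 : ℝ) ≠ (fun i => node m i) i := by
    intro i hi
    exact (node_ne_zero m i hm (Nat.lt_succ_iff.mp (Finset.mem_range.mp hi))).symm
  have hev := Lagrange.eval_interpolate_not_at_node
    (s := Finset.range (m + 1)) (v := fun i => node m i)
    (fun i => eval ((fun i => node m i) i) R) hne
  rw [← hint] at hev
  have hQ' : (derivative Q).eval 0 = R.eval 0 := by
    rw [hR]
    simp
  have hlc : (vPoly m).leadingCoeff ≠ 0 := by
    apply leadingCoeff_ne_zero.mpr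
    intro h
    have hd := vPoly_degree m hm0
    rw [h, degree_zero] at hd
    exact WithBot.bot_ne_coe hd
  have hVW := vPoly_eq_nodal m hm0
  rw [hQ', hev, Finset.mul_sum, ← Finset.sum_neg_distrib]
  refine Finset.sum_congr rfl (fun i hi => ?_)
  have hxi : node m i ≠ 0 := node_ne_zero m i hm (Nat.lt_succ_iff.mp (Finset.mem_range.mp hi))
  have hV0 : (vPoly m).eval 0 = (vPoly m).leadingCoeff
      * (Lagrange.nodal (Finset.range (m + 1)) (fun i => node m i)).eval 0 := by
    conv_lhs => rw [hVW]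
    simp
  have hV1 : (derivative (vPoly m)).eval (node m i) = (vPoly m).leadingCoeff
      * (derivative (Lagrange.nodal (Finset.range (m + 1)) (fun i => node m i))).eval
          (node m i) := by
    conv_lhs => rw [hVW]
    simp
  have hQi : Q.eval (node m i) = node m i * R.eval (node m i) := by
    rw [hR]
    simp
  rw [Lagrange.nodalWeight_eq_eval_derivative_nodal hi, hV0, hV1, hQi]
  field_simp
  ring


/-- The positive interpolation weights: `1 / (m x_i^2)` at the interior nodes and half of that at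
the two end nodes. -/
noncomputable def wgt (m i : ℕ) : ℝ :=
  if i = 0 ∨ i = m then 1 / (2 * m * (node m i) ^ 2) else 1 / (m * (node m i) ^ 2)

theorem wgt_nonneg (m i : ℕ) : 0 ≤ wgt m i := by
  unfold wgt
  split_ifs <;> positivity

theorem div_mul_sign (a b e : ℝ) (he : e * e = 1) : a / (b * e) = a * e / b := by
  have he0 : e ≠ 0 := by
    intro h
    rw [h] at he
    norm_num at he
  by_cases hb : b = 0
  · rw [hb]
    simp
  · field_simp
    linear_combination (-a) * he

theorem neg_one_pow_mul_self (i : ℕ) : ((-1 : ℝ)) ^ i * ((-1 : ℝ)) ^ i = 1 := by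
  rw [← mul_pow]
  norm_num

/-- The interpolation formula with explicit weights. -/
theorem deriv_zero_formula_wgt (m : ℕ) (hm : Odd m) (Q : ℝ[X]) (hdeg : Q.natDegree ≤ m)
    (h0 : Q.eval 0 = 0) :
    (derivative Q).eval 0
      = uSign m * ∑ i ∈ Finset.range (m + 1), (-1) ^ i * wgt m i * Q.eval (node m i) := by
  have hm0 : m ≠ 0 := by
    rintro rfl
    exact absurd hm (by decide)
  have hmR : (m : ℝ) ≠ 0 := by exact_mod_cast hm0
  rw [deriv_zero_formula m hm Q hdeg h0, Finset.mul_sum, ← Finset.sum_neg_distrib]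
  refine Finset.sum_congr rfl (fun i hi => ?_)
  have hile : i ≤ m := Nat.lt_succ_iff.mp (Finset.mem_range.mp hi)
  have hxi : node m i ≠ 0 := node_ne_zero m i hm hile
  have he := neg_one_pow_mul_self i
  rw [vPoly_eval_zero]
  by_cases hi0 : i = 0
  · have hw : wgt m i = 1 / (2 * m * (node m i) ^ 2) := by
      unfold wgt
      rw [if_pos (Or.inl hi0)]
    have hd : (derivative (vPoly m)).eval (node m i) = (2 * (m : ℝ) ^ 2) * (-1) ^ i := by
      rw [hi0]
      exact vPoly_derivative_node_first m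
    rw [hw, hd, div_mul_sign _ _ _ he]
    field_simp
  · by_cases him : i = m
    · have hw : wgt m i = 1 / (2 * m * (node m i) ^ 2) := by
        unfold wgt
        rw [if_pos (Or.inr him)]
      have hd : (derivative (vPoly m)).eval (node m i) = (2 * (m : ℝ) ^ 2) * (-1) ^ i := by
        rw [him]
        exact vPoly_derivative_node_last m hm
      rw [hw, hd, div_mul_sign _ _ _ he]
      field_simp
    · have hw : wgt m i = 1 / (m * (node m i) ^ 2) := by
        unfold wgt
        rw [if_neg (by tauto)]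
      have hd : (derivative (vPoly m)).eval (node m i) = ((m : ℝ) ^ 2) * (-1) ^ i :=
        vPoly_derivative_node_interior m i (Nat.pos_of_ne_zero hi0) (lt_of_le_of_ne hile him)
      rw [hw, hd, div_mul_sign _ _ _ he]
      field_simp

/-- The weights add up to `m`. -/
theorem sum_wgt (m : ℕ) (hm : Odd m) : ∑ i ∈ Finset.range (m + 1), wgt m i = m := by
  have hdeg : (T ℝ (m : ℤ)).natDegree ≤ m := by
    rw [natDegree_T]
    simp
  have h := deriv_zero_formula_wgt m hm (T ℝ (m : ℤ)) hdeg (T_zero_odd m hm)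
  rw [T_deriv_zero] at h
  have h2 : ∑ i ∈ Finset.range (m + 1), (-1) ^ i * wgt m i * (T ℝ (m : ℤ)).eval (node m i)
      = ∑ i ∈ Finset.range (m + 1), wgt m i := by
    refine Finset.sum_congr rfl (fun i hi => ?_)
    rw [eval_T_real_node (Finset.mem_Iic.mpr (Nat.lt_succ_iff.mp (Finset.mem_range.mp hi)))]
    have he := neg_one_pow_mul_self i
    calc (-1 : ℝ) ^ i * wgt m i * (-1) ^ i = ((-1 : ℝ) ^ i * (-1) ^ i) * wgt m i := by ring
      _ = wgt m i := by rw [he, one_mul]
  rw [h2] at h
  have hu := uSign_sq m hm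
  calc ∑ i ∈ Finset.range (m + 1), wgt m i
      = (uSign m * uSign m) * ∑ i ∈ Finset.range (m + 1), wgt m i := by rw [hu, one_mul]
    _ = uSign m * (uSign m * ∑ i ∈ Finset.range (m + 1), wgt m i) := by ring
    _ = uSign m * ((m : ℝ) * uSign m) := by rw [← h]
    _ = (m : ℝ) * (uSign m * uSign m) := by ring
    _ = m := by rw [hu, mul_one]

theorem uSign_abs (m : ℕ) (hm : Odd m) : |uSign m| = 1 := by
  have h := uSign_sq m hm
  have h2 : |uSign m| * |uSign m| = 1 := by rw [← abs_mul, h, abs_one]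
  nlinarith [abs_nonneg (uSign m)]

/-- A weighted bound: if `|Q x_i| ≤ b i` at every node then `|Q' 0| ≤ ∑ wgt i * b i`. -/
theorem cheb_bound_weighted (m : ℕ) (hm : Odd m) (Q : ℝ[X]) (hdeg : Q.natDegree ≤ m)
    (h0 : Q.eval 0 = 0) (b : ℕ → ℝ)
    (hb : ∀ i ∈ Finset.range (m + 1), |Q.eval (node m i)| ≤ b i) :
    |(derivative Q).eval 0| ≤ ∑ i ∈ Finset.range (m + 1), wgt m i * b i := by
  rw [deriv_zero_formula_wgt m hm Q hdeg h0, abs_mul, uSign_abs m hm, one_mul]
  refine (Finset.abs_sum_le_sum_abs _ _).trans (Finset.sum_le_sum (fun i hi => ?_))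
  rw [abs_mul, abs_mul, abs_pow, abs_neg, abs_one, one_pow, one_mul, abs_of_nonneg (wgt_nonneg m i)]
  exact mul_le_mul_of_nonneg_left (hb i hi) (wgt_nonneg m i)

/-- Bernstein's inequality at the origin for polynomials of odd degree vanishing at `0`. -/
theorem cheb_bound_basic (m : ℕ) (hm : Odd m) (Q : ℝ[X]) (hdeg : Q.natDegree ≤ m)
    (h0 : Q.eval 0 = 0) (hbd : ∀ x ∈ Set.Icc (-1 : ℝ) 1, |Q.eval x| ≤ 1) :
    |(derivative Q).eval 0| ≤ m := by
  have h := cheb_bound_weighted m hm Q hdeg h0 (fun _ => 1)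
    (fun i _ => hbd _ node_mem_Icc)
  simp only [mul_one] at h
  rw [sum_wgt m hm] at h
  exact h


theorem node_central_neg (k : ℕ) : node (2 * k + 1) (k + 1) = - node (2 * k + 1) k := by
  unfold node
  have h : ((k + 1 : ℕ) : ℝ) * π / ((2 * k + 1 : ℕ) : ℝ)
      = π - (k : ℝ) * π / ((2 * k + 1 : ℕ) : ℝ) := by
    push_cast
    field_simp
    ring
  rw [h, cos_pi_sub]

/-- The refined inequality: a bound `β` at the two nodes nearest to the origin improves
Bernstein's bound `m` by `2 (1 - β) / (m s^2)`, where `s` is the positive one of these nodes. -/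
theorem cheb_bound_central (k : ℕ) (hk : 1 ≤ k) (Q : ℝ[X]) (hdeg : Q.natDegree ≤ 2 * k + 1)
    (h0 : Q.eval 0 = 0) (hbd : ∀ x ∈ Set.Icc (-1 : ℝ) 1, |Q.eval x| ≤ 1) (β : ℝ)
    (h1 : |Q.eval (node (2 * k + 1) k)| ≤ β) (h2 : |Q.eval (-(node (2 * k + 1) k))| ≤ β) :
    |(derivative Q).eval 0| ≤ ((2 * k + 1 : ℕ) : ℝ)
      - 2 * (1 - β) / (((2 * k + 1 : ℕ) : ℝ) * (node (2 * k + 1) k) ^ 2) := by
  have hm : Odd (2 * k + 1) := ⟨k, rfl⟩
  have hwk : wgt (2 * k + 1) k
      = 1 / (((2 * k + 1 : ℕ) : ℝ) * (node (2 * k + 1) k) ^ 2) := by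
    unfold wgt
    rw [if_neg (by omega)]
  have hwk1 : wgt (2 * k + 1) (k + 1)
      = 1 / (((2 * k + 1 : ℕ) : ℝ) * (node (2 * k + 1) k) ^ 2) := by
    unfold wgt
    rw [if_neg (by omega), node_central_neg, neg_sq]
  have hb := cheb_bound_weighted (2 * k + 1) hm Q hdeg h0
    (fun i => 1 - (1 - β) * ((if i = k then 1 else 0) + (if i = k + 1 then 1 else 0))) ?_
  · have hterm : ∀ i : ℕ, wgt (2 * k + 1) i
          * (1 - (1 - β) * ((if i = k then (1 : ℝ) else 0) + (if i = k + 1 then 1 else 0)))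
        = wgt (2 * k + 1) i - (1 - β) * ((if i = k then wgt (2 * k + 1) i else 0)
          + (if i = k + 1 then wgt (2 * k + 1) i else 0)) := by
      intro i
      split_ifs <;> ring
    have hsum : ∑ i ∈ Finset.range (2 * k + 1 + 1), wgt (2 * k + 1) i
          * (1 - (1 - β) * ((if i = k then (1 : ℝ) else 0) + (if i = k + 1 then 1 else 0)))
        = ((2 * k + 1 : ℕ) : ℝ)
          - (1 - β) * (wgt (2 * k + 1) k + wgt (2 * k + 1) (k + 1)) := by
      rw [Finset.sum_congr rfl (fun i _ => hterm i), Finset.sum_sub_distrib, sum_wgt _ hm,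
        ← Finset.mul_sum, Finset.sum_add_distrib, Finset.sum_ite_eq', Finset.sum_ite_eq',
        if_pos (Finset.mem_range.mpr (by omega)), if_pos (Finset.mem_range.mpr (by omega))]
    rw [hsum, hwk, hwk1] at hb
    calc |(derivative Q).eval 0| ≤ _ := hb
      _ = _ := by ring
  · intro i _
    by_cases hik : i = k
    · subst hik
      have hne : ¬ (i = i + 1) := by omega
      simp only [if_true, if_neg hne, add_zero, mul_one]
      calc |Q.eval (node (2 * i + 1) i)| ≤ β := h1
        _ = 1 - (1 - β) := by ring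
    · by_cases hik1 : i = k + 1
      · subst hik1
        simp only [if_neg hik, if_true, zero_add, mul_one]
        rw [node_central_neg]
        calc |Q.eval (-(node (2 * k + 1) k))| ≤ β := h2
          _ = 1 - (1 - β) := by ring
      · simp only [if_neg hik, if_neg hik1, add_zero, mul_zero, sub_zero]
        exact hbd _ node_mem_Icc

/-- The central node is `sin (π / (2 m))`. -/
theorem node_central_eq_sin (k : ℕ) :
    node (2 * k + 1) k = sin (π / (2 * ((2 * k + 1 : ℕ) : ℝ))) := by
  unfold node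
  rw [← cos_pi_div_two_sub]
  congr 1
  push_cast
  field_simp
  ring

end Vale.Agent.Helper17.GS
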