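import Vale.Agent.Helper17.GSDefs

/-!
# Biased Fourier analysis on the cube, by hand

For a real parameter `t`, the product measure on `{-1,1}^n` whose coordinates have mean `t`
gives the point `x` the weight `wt t x = ∏ i, (1 + t * x i) / 2`.  The functions
`yb t T x = ∏ i ∈ T, (x i - t)` are orthogonal for this weight, with squared norm
`(1 - t ^ 2) ^ |T|`, and every function is the combination `∑ T, cb f t T * yb t T`.
-/

namespace Vale.Agent.Helper17.GS

open Finset

variable {n : ℕ}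

/-- The real value of the `i`-th coordinate of a point of the cube. -/
def xr (x : Fin n → ℤˣ) (i : Fin n) : ℝ := ((x i : ℤ) : ℝ)

theorem xr_cases (x : Fin n → ℤˣ) (i : Fin n) : xr x i = 1 ∨ xr x i = -1 := by
  unfold xr
  rcases Int.units_eq_one_or (x i) with h | h <;> simp [h]

theorem xr_sq (x : Fin n → ℤˣ) (i : Fin n) : xr x i * xr x i = 1 := by
  rcases xr_cases x i with h | h <;> simp [h]

/-- The character of the cube attached to `S`. -/
noncomputable def chi (S : Finset (Fin n)) (x : Fin n → ℤˣ) : ℝ := ∏ i ∈ S, xr x i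

theorem fourier_eq (f : (Fin n → ℤˣ) → ℝ) (S : Finset (Fin n)) :
    fourier f S = (∑ x : Fin n → ℤˣ, f x * chi S x) / 2 ^ n := rfl

/-- A sum over the cube of a product over the coordinates factorises. -/
theorem sum_cube_prod (φ : Fin n → ℤˣ → ℝ) :
    ∑ x : Fin n → ℤˣ, ∏ i, φ i (x i) = ∏ i, (φ i 1 + φ i (-1)) := by
  have h := Finset.prod_univ_sum (fun _ : Fin n => (Finset.univ : Finset ℤˣ)) φ
  rw [Fintype.piFinset_univ] at h
  rw [← h]
  refine Finset.prod_congr rfl (fun i _ => ?_)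
  have hu : (Finset.univ : Finset ℤˣ) = {1, -1} := by decide
  rw [hu, Finset.sum_pair (by decide)]

theorem unit_one_cast : (((1 : ℤˣ) : ℤ) : ℝ) = 1 := by simp

theorem unit_neg_one_cast : (((-1 : ℤˣ) : ℤ) : ℝ) = -1 := by simp

/-- Dual orthogonality of the characters. -/
theorem sum_chi_mul (x y : Fin n → ℤˣ) :
    ∑ S : Finset (Fin n), chi S x * chi S y = if x = y then (2 : ℝ) ^ n else 0 := by
  have h1 : ∑ S : Finset (Fin n), chi S x * chi S y
      = ∏ i : Fin n, (1 + xr x i * xr y i) := by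
    rw [Finset.prod_one_add, Finset.powerset_univ]
    refine Finset.sum_congr rfl (fun S _ => ?_)
    unfold chi
    rw [Finset.prod_mul_distrib]
  rw [h1]
  split_ifs with h
  · subst h
    have : ∀ i : Fin n, (1 + xr x i * xr x i) = 2 := by
      intro i
      rw [xr_sq]
      norm_num
    simp [this]
  · obtain ⟨i, hi⟩ := Function.ne_iff.mp h
    apply Finset.prod_eq_zero (Finset.mem_univ i)
    unfold xr
    rcases Int.units_eq_one_or (x i) with hx | hx <;>
      rcases Int.units_eq_one_or (y i) with hy | hy <;> simp_all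

/-- Fourier inversion. -/
theorem inversion (g : (Fin n → ℤˣ) → ℝ) (x : Fin n → ℤˣ) :
    g x = ∑ S : Finset (Fin n), fourier g S * chi S x := by
  have h2 : (2 : ℝ) ^ n ≠ 0 := by positivity
  have : ∀ S : Finset (Fin n), fourier g S * chi S x
      = (∑ y : Fin n → ℤˣ, g y * (chi S y * chi S x)) / 2 ^ n := by
    intro S
    rw [fourier_eq, div_mul_eq_mul_div, Finset.sum_mul]
    congr 1
    refine Finset.sum_congr rfl (fun y _ => ?_)
    ring
  simp_rw [this]
  rw [← Finset.sum_div, Finset.sum_comm]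
  simp_rw [← Finset.mul_sum, sum_chi_mul]
  simp [h2]


/-- The weight of `x` for the product measure whose coordinates have mean `t`. -/
noncomputable def wt (t : ℝ) (x : Fin n → ℤˣ) : ℝ := ∏ i, ((1 + t * xr x i) / 2)

/-- The shifted monomial `∏ i ∈ T, (x i - t)`. -/
noncomputable def yb (t : ℝ) (T : Finset (Fin n)) (x : Fin n → ℤˣ) : ℝ :=
  ∏ i ∈ T, (xr x i - t)

theorem yb_eq_prod_ite (t : ℝ) (T : Finset (Fin n)) (x : Fin n → ℤˣ) :
    yb t T x = ∏ i, (if i ∈ T then (xr x i - t) else 1) := by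
  unfold yb
  rw [Finset.prod_ite_mem, Finset.univ_inter]

/-- Orthogonality of the shifted monomials for the biased weight. -/
theorem ortho (t : ℝ) (T T' : Finset (Fin n)) :
    ∑ x : Fin n → ℤˣ, wt t x * (yb t T x * yb t T' x)
      = if T = T' then (1 - t ^ 2) ^ T.card else 0 := by
  let ψ : Fin n → ℤˣ → ℝ := fun i u => (1 + t * ((u : ℤ) : ℝ)) / 2 *
      ((if i ∈ T then (((u : ℤ) : ℝ) - t) else 1) * (if i ∈ T' then (((u : ℤ) : ℝ) - t) else 1))
  have h1 : ∀ x : Fin n → ℤˣ, wt t x * (yb t T x * yb t T' x) = ∏ i, ψ i (x i) := by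
    intro x
    rw [yb_eq_prod_ite, yb_eq_prod_ite]
    unfold wt
    rw [← Finset.prod_mul_distrib, ← Finset.prod_mul_distrib]
    rfl
  rw [Finset.sum_congr rfl (fun x _ => h1 x), sum_cube_prod]
  have h2 : ∀ i, ψ i 1 + ψ i (-1)
      = if i ∈ T then (if i ∈ T' then (1 - t ^ 2) else 0) else (if i ∈ T' then 0 else 1) := by
    intro i
    simp only [ψ, Units.val_one, Units.val_neg, Int.cast_one, Int.cast_neg]
    split_ifs <;> ring
  rw [Finset.prod_congr rfl (fun i _ => h2 i)]
  split_ifs with hTT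
  · subst hTT
    have h3 : ∀ i, (if i ∈ T then (if i ∈ T then (1 - t ^ 2) else 0) else (if i ∈ T then 0 else 1))
        = if i ∈ T then (1 - t ^ 2) else 1 := by
      intro i
      split_ifs <;> rfl
    rw [Finset.prod_congr rfl (fun i _ => h3 i), Finset.prod_ite_mem, Finset.univ_inter,
      Finset.prod_const]
  · have h4 : ∃ i, (i ∈ T ∧ i ∉ T') ∨ (i ∉ T ∧ i ∈ T') := by
      by_contra hcon
      apply hTT
      ext i
      constructor
      · intro h
        by_contra h'
        exact hcon ⟨i, Or.inl ⟨h, h'⟩⟩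
      · intro h
        by_contra h'
        exact hcon ⟨i, Or.inr ⟨h', h⟩⟩
    obtain ⟨i, hi⟩ := h4
    apply Finset.prod_eq_zero (Finset.mem_univ i)
    rcases hi with ⟨h5, h6⟩ | ⟨h5, h6⟩ <;> simp [h5, h6]

/-- The coefficient of `yb t T` in the expansion of `f`. -/
noncomputable def cb (f : (Fin n → ℤˣ) → ℝ) (t : ℝ) (T : Finset (Fin n)) : ℝ :=
  ∑ S : Finset (Fin n), if T ⊆ S then fourier f S * t ^ (S \ T).card else 0

theorem chi_expand (t : ℝ) (S : Finset (Fin n)) (x : Fin n → ℤˣ) :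
    chi S x = ∑ T : Finset (Fin n), if T ⊆ S then yb t T x * t ^ (S \ T).card else 0 := by
  have h : chi S x = ∏ i ∈ S, ((xr x i - t) + t) := by
    unfold chi
    exact Finset.prod_congr rfl (fun i _ => by ring)
  rw [h, Finset.prod_add, ← Finset.sum_filter]
  have hf : (Finset.univ.filter (fun T : Finset (Fin n) => T ⊆ S)) = S.powerset := by
    ext T
    simp
  rw [hf]
  refine Finset.sum_congr rfl (fun T _ => ?_)
  rw [Finset.prod_const]
  rfl

/-- Every function on the cube is a combination of the shifted monomials. -/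
theorem expansion (f : (Fin n → ℤˣ) → ℝ) (t : ℝ) (x : Fin n → ℤˣ) :
    f x = ∑ T : Finset (Fin n), cb f t T * yb t T x := by
  have h1 : f x = ∑ S : Finset (Fin n), ∑ T : Finset (Fin n),
      (if T ⊆ S then fourier f S * t ^ (S \ T).card else 0) * yb t T x := by
    rw [inversion f x]
    refine Finset.sum_congr rfl (fun S _ => ?_)
    rw [chi_expand t S x, Finset.mul_sum]
    refine Finset.sum_congr rfl (fun T _ => ?_)
    split_ifs <;> ring
  rw [h1, Finset.sum_comm]
  refine Finset.sum_congr rfl (fun T _ => ?_)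
  unfold cb
  rw [Finset.sum_mul]

/-- Extraction of a coefficient by the biased inner product. -/
theorem inner_b (a : Finset (Fin n) → ℝ) (t : ℝ) (T0 : Finset (Fin n)) :
    ∑ x : Fin n → ℤˣ, wt t x * ((∑ T : Finset (Fin n), a T * yb t T x) * yb t T0 x)
      = a T0 * (1 - t ^ 2) ^ T0.card := by
  have h : ∀ x : Fin n → ℤˣ, wt t x * ((∑ T : Finset (Fin n), a T * yb t T x) * yb t T0 x)
      = ∑ T : Finset (Fin n), a T * (wt t x * (yb t T x * yb t T0 x)) := by
    intro x
    rw [Finset.sum_mul, Finset.mul_sum]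
    refine Finset.sum_congr rfl (fun T _ => ?_)
    ring
  rw [Finset.sum_congr rfl (fun x _ => h x), Finset.sum_comm]
  have h2 : ∀ T : Finset (Fin n), ∑ x : Fin n → ℤˣ, a T * (wt t x * (yb t T x * yb t T0 x))
      = if T = T0 then a T0 * (1 - t ^ 2) ^ T0.card else 0 := by
    intro T
    rw [← Finset.mul_sum, ortho]
    split_ifs with hT
    · rw [hT]
    · ring
  rw [Finset.sum_congr rfl (fun T _ => h2 T), Finset.sum_ite_eq' Finset.univ T0]
  simp

/-- The biased Parseval identity. -/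
theorem parseval_b (a : Finset (Fin n) → ℝ) (t : ℝ) :
    ∑ x : Fin n → ℤˣ, wt t x * (∑ T : Finset (Fin n), a T * yb t T x) ^ 2
      = ∑ T : Finset (Fin n), a T ^ 2 * (1 - t ^ 2) ^ T.card := by
  have h : ∀ x : Fin n → ℤˣ, wt t x * (∑ T : Finset (Fin n), a T * yb t T x) ^ 2
      = ∑ T0 : Finset (Fin n),
          a T0 * (wt t x * ((∑ T : Finset (Fin n), a T * yb t T x) * yb t T0 x)) := by
    intro x
    rw [sq]
    nth_rewrite 2 [show (∑ T : Finset (Fin n), a T * yb t T x)
      = ∑ T0 : Finset (Fin n), a T0 * yb t T0 x from rfl]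
    rw [Finset.mul_sum, Finset.mul_sum]
    refine Finset.sum_congr rfl (fun T0 _ => ?_)
    ring
  rw [Finset.sum_congr rfl (fun x _ => h x), Finset.sum_comm]
  refine Finset.sum_congr rfl (fun T0 _ => ?_)
  rw [← Finset.mul_sum, inner_b]
  ring


/-- Flipping the `i`-th coordinate. -/
def flip (i : Fin n) (x : Fin n → ℤˣ) : Fin n → ℤˣ := Function.update x i (-(x i))

theorem xr_flip_self (i : Fin n) (x : Fin n → ℤˣ) : xr (flip i x) i = - xr x i := by
  unfold xr flip
  simp

theorem xr_flip_ne (i j : Fin n) (h : j ≠ i) (x : Fin n → ℤˣ) : xr (flip i x) j = xr x j := by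
  unfold xr flip
  rw [Function.update_of_ne h]

theorem yb_flip (t : ℝ) (i : Fin n) (T : Finset (Fin n)) (hi : i ∉ T) (x : Fin n → ℤˣ) :
    yb t T (flip i x) = yb t T x := by
  unfold yb
  refine Finset.prod_congr rfl (fun j hj => ?_)
  rw [xr_flip_ne i j (fun e => hi (e ▸ hj))]

theorem yb_erase (t : ℝ) (i : Fin n) (T : Finset (Fin n)) (hi : i ∈ T) (x : Fin n → ℤˣ) :
    yb t T x = (xr x i - t) * yb t (T.erase i) x := by
  unfold yb
  exact (Finset.mul_prod_erase T (fun j => xr x j - t) hi).symm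

/-- The part of the expansion of `f` that involves the coordinate `i`. -/
noncomputable def gb (f : (Fin n → ℤˣ) → ℝ) (t : ℝ) (i : Fin n) (x : Fin n → ℤˣ) : ℝ :=
  ∑ T : Finset (Fin n), (if i ∈ T then cb f t T else 0) * yb t T x

/-- The part of the expansion of `f` that does not involve the coordinate `i`. -/
noncomputable def hb (f : (Fin n → ℤˣ) → ℝ) (t : ℝ) (i : Fin n) (x : Fin n → ℤˣ) : ℝ :=
  ∑ T : Finset (Fin n), (if i ∈ T then 0 else cb f t T) * yb t T x

/-- The quotient of `gb` by `x i - t`. -/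
noncomputable def kb (f : (Fin n → ℤˣ) → ℝ) (t : ℝ) (i : Fin n) (x : Fin n → ℤˣ) : ℝ :=
  ∑ T : Finset (Fin n), if i ∈ T then cb f t T * yb t (T.erase i) x else 0

theorem f_eq_gb_add_hb (f : (Fin n → ℤˣ) → ℝ) (t : ℝ) (i : Fin n) (x : Fin n → ℤˣ) :
    f x = gb f t i x + hb f t i x := by
  rw [expansion f t x]
  unfold gb hb
  rw [← Finset.sum_add_distrib]
  refine Finset.sum_congr rfl (fun T _ => ?_)
  split_ifs <;> ring

theorem gb_eq (f : (Fin n → ℤˣ) → ℝ) (t : ℝ) (i : Fin n) (x : Fin n → ℤˣ) :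
    gb f t i x = (xr x i - t) * kb f t i x := by
  unfold gb kb
  rw [Finset.mul_sum]
  refine Finset.sum_congr rfl (fun T _ => ?_)
  split_ifs with hT
  · rw [yb_erase t i T hT x]
    ring
  · ring

theorem kb_flip (f : (Fin n → ℤˣ) → ℝ) (t : ℝ) (i : Fin n) (x : Fin n → ℤˣ) :
    kb f t i (flip i x) = kb f t i x := by
  unfold kb
  refine Finset.sum_congr rfl (fun T _ => ?_)
  split_ifs with hT
  · rw [yb_flip t i (T.erase i) (Finset.notMem_erase i T) x]
  · rfl

theorem hb_flip (f : (Fin n → ℤˣ) → ℝ) (t : ℝ) (i : Fin n) (x : Fin n → ℤˣ) :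
    hb f t i (flip i x) = hb f t i x := by
  unfold hb
  refine Finset.sum_congr rfl (fun T _ => ?_)
  split_ifs with hT
  · ring
  · rw [yb_flip t i T hT x]

theorem kb_val (f : (Fin n → ℤˣ) → ℝ) (t : ℝ) (i : Fin n) (x : Fin n → ℤˣ) :
    kb f t i x = xr x i * ((f x - f (flip i x)) / 2) := by
  have e1 := f_eq_gb_add_hb f t i x
  have e2 := f_eq_gb_add_hb f t i (flip i x)
  rw [hb_flip, gb_eq, kb_flip, xr_flip_self] at e2
  rw [gb_eq] at e1
  have e3 : f x - f (flip i x) = 2 * xr x i * kb f t i x := by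
    rw [e1, e2]
    ring
  rw [e3]
  have h := xr_sq x i
  calc kb f t i x = (xr x i * xr x i) * kb f t i x := by rw [h, one_mul]
    _ = xr x i * (2 * xr x i * kb f t i x / 2) := by ring

theorem kb_abs (f : (Fin n → ℤˣ) → ℝ) (hf : ∀ x, f x = 1 ∨ f x = -1) (t : ℝ) (i : Fin n)
    (x : Fin n → ℤˣ) : |kb f t i x| = kb f t i x ^ 2 := by
  rw [kb_val]
  rcases xr_cases x i with h1 | h1 <;> rcases hf x with h2 | h2 <;>
    rcases hf (flip i x) with h3 | h3 <;> rw [h1, h2, h3] <;> norm_num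

theorem wt_nonneg (t : ℝ) (ht : |t| ≤ 1) (x : Fin n → ℤˣ) : 0 ≤ wt t x := by
  unfold wt
  refine Finset.prod_nonneg (fun i _ => ?_)
  have h := abs_le.mp ht
  rcases xr_cases x i with h1 | h1 <;> rw [h1] <;> linarith [h.1, h.2]

/-- The key inequality for one coordinate: for a Boolean `f`, the first-level coefficient at `i`
is dominated by the total weight of the coefficients that involve `i`. -/
theorem level_one_le (f : (Fin n → ℤˣ) → ℝ) (hf : ∀ x, f x = 1 ∨ f x = -1) (t : ℝ)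
    (ht : |t| ≤ 1) (i : Fin n) :
    (1 - t ^ 2) * |cb f t {i}|
      ≤ ∑ T : Finset (Fin n), if i ∈ T then cb f t T ^ 2 * (1 - t ^ 2) ^ T.card else 0 := by
  have h1t : 0 ≤ 1 - t ^ 2 := by
    have h := abs_le.mp ht
    nlinarith [h.1, h.2]
  have hmain : (1 - t ^ 2) * cb f t {i}
      = ∑ x : Fin n → ℤˣ, wt t x * ((xr x i - t) ^ 2 * kb f t i x) := by
    have h := inner_b (fun T : Finset (Fin n) => if i ∈ T then cb f t T else 0) t {i}
    simp only [Finset.mem_singleton, if_true, Finset.card_singleton, pow_one] at h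
    rw [mul_comm, ← h]
    refine Finset.sum_congr rfl (fun x _ => ?_)
    have hg : (∑ T : Finset (Fin n), (if i ∈ T then cb f t T else 0) * yb t T x)
        = gb f t i x := rfl
    rw [hg, gb_eq]
    have hy : yb t {i} x = xr x i - t := by
      unfold yb
      rw [Finset.prod_singleton]
    rw [hy]
    ring
  have hsq : ∑ x : Fin n → ℤˣ, wt t x * ((xr x i - t) ^ 2 * kb f t i x ^ 2)
      = ∑ T : Finset (Fin n), (if i ∈ T then cb f t T else 0) ^ 2 * (1 - t ^ 2) ^ T.card := by
    rw [← parseval_b (fun T : Finset (Fin n) => if i ∈ T then cb f t T else 0) t]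
    refine Finset.sum_congr rfl (fun x _ => ?_)
    have hg : (∑ T : Finset (Fin n), (if i ∈ T then cb f t T else 0) * yb t T x)
        = gb f t i x := rfl
    rw [hg, gb_eq]
    ring
  calc (1 - t ^ 2) * |cb f t {i}| = |(1 - t ^ 2) * cb f t {i}| := by
        rw [abs_mul, abs_of_nonneg h1t]
    _ = |∑ x : Fin n → ℤˣ, wt t x * ((xr x i - t) ^ 2 * kb f t i x)| := by rw [hmain]
    _ ≤ ∑ x : Fin n → ℤˣ, |wt t x * ((xr x i - t) ^ 2 * kb f t i x)| :=
        Finset.abs_sum_le_sum_abs _ _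
    _ = ∑ x : Fin n → ℤˣ, wt t x * ((xr x i - t) ^ 2 * kb f t i x ^ 2) := by
        refine Finset.sum_congr rfl (fun x _ => ?_)
        rw [abs_mul, abs_mul, abs_of_nonneg (wt_nonneg t ht x), abs_of_nonneg (sq_nonneg _),
          kb_abs f hf]
    _ = ∑ T : Finset (Fin n), (if i ∈ T then cb f t T else 0) ^ 2 * (1 - t ^ 2) ^ T.card := hsq
    _ = ∑ T : Finset (Fin n), if i ∈ T then cb f t T ^ 2 * (1 - t ^ 2) ^ T.card else 0 := by
        refine Finset.sum_congr rfl (fun T _ => ?_)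
        split_ifs <;> ring


theorem cb_eq_zero (f : (Fin n → ℤˣ) → ℝ) (d : ℕ)
    (hd : ∀ S : Finset (Fin n), d < S.card → fourier f S = 0) (t : ℝ) (T : Finset (Fin n))
    (hT : d < T.card) : cb f t T = 0 := by
  unfold cb
  refine Finset.sum_eq_zero (fun S _ => ?_)
  split_ifs with h
  · rw [hd S (lt_of_lt_of_le hT (Finset.card_le_card h)), zero_mul]
  · rfl

theorem sum_wt (t : ℝ) : ∑ x : Fin n → ℤˣ, wt t x = 1 := by
  have h := ortho (n := n) t ∅ ∅
  simpa [yb] using h

theorem mean_eq (f : (Fin n → ℤˣ) → ℝ) (t : ℝ) :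
    ∑ x : Fin n → ℤˣ, wt t x * f x = cb f t ∅ := by
  have h := inner_b (cb f t) t ∅
  simp only [Finset.card_empty, pow_zero, mul_one] at h
  rw [← h]
  refine Finset.sum_congr rfl (fun x _ => ?_)
  rw [← expansion f t x]
  simp [yb]

theorem parseval_one (f : (Fin n → ℤˣ) → ℝ) (hf : ∀ x, f x = 1 ∨ f x = -1) (t : ℝ) :
    ∑ T : Finset (Fin n), cb f t T ^ 2 * (1 - t ^ 2) ^ T.card = 1 := by
  rw [← parseval_b (cb f t) t, ← sum_wt (n := n) t]
  refine Finset.sum_congr rfl (fun x _ => ?_)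
  rw [← expansion f t x]
  rcases hf x with h | h <;> rw [h] <;> norm_num

/-- The biased first-level inequality: `(1 - t^2) ∑ |c_i| ≤ d (1 - c_∅^2)`. -/
theorem biased_level_one (f : (Fin n → ℤˣ) → ℝ) (hf : ∀ x, f x = 1 ∨ f x = -1) (d : ℕ)
    (hd : ∀ S : Finset (Fin n), d < S.card → fourier f S = 0) (t : ℝ) (ht : |t| ≤ 1) :
    (1 - t ^ 2) * ∑ i : Fin n, |cb f t {i}| ≤ d * (1 - cb f t ∅ ^ 2) := by
  have h1t : 0 ≤ 1 - t ^ 2 := by
    have h := abs_le.mp ht
    nlinarith [h.1, h.2]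
  have hv0 : ∀ T : Finset (Fin n), 0 ≤ cb f t T ^ 2 * (1 - t ^ 2) ^ T.card :=
    fun T => mul_nonneg (sq_nonneg _) (pow_nonneg h1t _)
  have hsum := parseval_one f hf t
  have h1 : (1 - t ^ 2) * ∑ i : Fin n, |cb f t {i}|
      ≤ ∑ i : Fin n, ∑ T : Finset (Fin n),
          if i ∈ T then cb f t T ^ 2 * (1 - t ^ 2) ^ T.card else 0 := by
    rw [Finset.mul_sum]
    exact Finset.sum_le_sum (fun i _ => level_one_le f hf t ht i)
  have h2 : ∑ i : Fin n, ∑ T : Finset (Fin n),
        (if i ∈ T then cb f t T ^ 2 * (1 - t ^ 2) ^ T.card else 0)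
      = ∑ T : Finset (Fin n), (T.card : ℝ) * (cb f t T ^ 2 * (1 - t ^ 2) ^ T.card) := by
    rw [Finset.sum_comm]
    refine Finset.sum_congr rfl (fun T _ => ?_)
    rw [Finset.sum_ite_mem, Finset.univ_inter, Finset.sum_const, nsmul_eq_mul]
  have h3 : ∀ T : Finset (Fin n), (T.card : ℝ) * (cb f t T ^ 2 * (1 - t ^ 2) ^ T.card)
      ≤ d * (cb f t T ^ 2 * (1 - t ^ 2) ^ T.card
          - if T = ∅ then cb f t T ^ 2 * (1 - t ^ 2) ^ T.card else 0) := by
    intro T
    split_ifs with hT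
    · rw [hT]
      simp
    · by_cases hc : d < T.card
      · rw [cb_eq_zero f d hd t T hc]
        simp
      · rw [sub_zero]
        exact mul_le_mul_of_nonneg_right (by exact_mod_cast not_lt.mp hc) (hv0 T)
  have h4 : ∑ T : Finset (Fin n), (cb f t T ^ 2 * (1 - t ^ 2) ^ T.card
          - if T = ∅ then cb f t T ^ 2 * (1 - t ^ 2) ^ T.card else 0) = 1 - cb f t ∅ ^ 2 := by
    rw [Finset.sum_sub_distrib, hsum, Finset.sum_ite_eq' Finset.univ ∅]
    simp
  calc (1 - t ^ 2) * ∑ i : Fin n, |cb f t {i}|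
      ≤ ∑ T : Finset (Fin n), (T.card : ℝ) * (cb f t T ^ 2 * (1 - t ^ 2) ^ T.card) := by
        rw [← h2]
        exact h1
    _ ≤ ∑ T : Finset (Fin n), d * (cb f t T ^ 2 * (1 - t ^ 2) ^ T.card
          - if T = ∅ then cb f t T ^ 2 * (1 - t ^ 2) ^ T.card else 0) :=
        Finset.sum_le_sum (fun T _ => h3 T)
    _ = d * (1 - cb f t ∅ ^ 2) := by rw [← Finset.mul_sum, h4]

/-- The polynomial `p(t) = ∑ S, fourier f S * t ^ |S|`, the mean of `f` for the product measure
with coordinate mean `t`. -/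
noncomputable def pPoly (f : (Fin n → ℤˣ) → ℝ) : Polynomial ℝ :=
  ∑ S : Finset (Fin n), Polynomial.C (fourier f S) * Polynomial.X ^ S.card

theorem pPoly_eval (f : (Fin n → ℤˣ) → ℝ) (t : ℝ) : (pPoly f).eval t = cb f t ∅ := by
  unfold pPoly cb
  rw [Polynomial.eval_finsetSum]
  refine Finset.sum_congr rfl (fun S _ => ?_)
  simp

theorem pPoly_derivative_eval (f : (Fin n → ℤˣ) → ℝ) (t : ℝ) :
    (Polynomial.derivative (pPoly f)).eval t = ∑ i : Fin n, cb f t {i} := by
  unfold pPoly cb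
  rw [Polynomial.derivative_sum, Polynomial.eval_finsetSum, Finset.sum_comm]
  refine Finset.sum_congr rfl (fun S _ => ?_)
  have h : ∀ i : Fin n, (if {i} ⊆ S then fourier f S * t ^ (S \ {i}).card else 0)
      = if i ∈ S then fourier f S * t ^ (S.card - 1) else 0 := by
    intro i
    by_cases hi : i ∈ S
    · rw [if_pos (Finset.singleton_subset_iff.mpr hi), if_pos hi,
        Finset.sdiff_singleton_eq_erase, Finset.card_erase_of_mem hi]
    · rw [if_neg (fun h => hi (Finset.singleton_subset_iff.mp h)), if_neg hi]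
  rw [Finset.sum_congr rfl (fun i _ => h i), Finset.sum_ite_mem, Finset.univ_inter,
    Finset.sum_const, nsmul_eq_mul]
  simp [Polynomial.derivative_X_pow]
  ring

theorem pPoly_natDegree_le (f : (Fin n → ℤˣ) → ℝ) (d : ℕ)
    (hd : ∀ S : Finset (Fin n), d < S.card → fourier f S = 0) : (pPoly f).natDegree ≤ d := by
  unfold pPoly
  refine Polynomial.natDegree_sum_le_of_forall_le _ _ (fun S _ => ?_)
  by_cases hS : d < S.card
  · rw [hd S hS]
    simp
  · exact (Polynomial.natDegree_C_mul_X_pow_le _ _).trans (not_lt.mp hS)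

theorem pPoly_abs_le_one (f : (Fin n → ℤˣ) → ℝ) (hf : ∀ x, f x = 1 ∨ f x = -1) (t : ℝ)
    (ht : |t| ≤ 1) : |(pPoly f).eval t| ≤ 1 := by
  rw [pPoly_eval, ← mean_eq]
  calc |∑ x : Fin n → ℤˣ, wt t x * f x| ≤ ∑ x : Fin n → ℤˣ, |wt t x * f x| :=
        Finset.abs_sum_le_sum_abs _ _
    _ = ∑ x : Fin n → ℤˣ, wt t x := by
        refine Finset.sum_congr rfl (fun x _ => ?_)
        rw [abs_mul, abs_of_nonneg (wt_nonneg t ht x)]
        rcases hf x with h | h <;> rw [h] <;> norm_num
    _ = 1 := sum_wt t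

/-- The differential inequality `(1 - t^2) |p'(t)| ≤ d (1 - p(t)^2)` for a Boolean function of
degree at most `d`. -/
theorem key_B (f : (Fin n → ℤˣ) → ℝ) (hf : ∀ x, f x = 1 ∨ f x = -1) (d : ℕ)
    (hd : ∀ S : Finset (Fin n), d < S.card → fourier f S = 0) (t : ℝ) (ht : |t| ≤ 1) :
    (1 - t ^ 2) * |(Polynomial.derivative (pPoly f)).eval t|
      ≤ d * (1 - (pPoly f).eval t ^ 2) := by
  have h1t : 0 ≤ 1 - t ^ 2 := by
    have h := abs_le.mp ht
    nlinarith [h.1, h.2]
  rw [pPoly_derivative_eval, pPoly_eval]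
  exact (mul_le_mul_of_nonneg_left (Finset.abs_sum_le_sum_abs _ _) h1t).trans
    (biased_level_one f hf d hd t ht)

theorem cb_zero_singleton (f : (Fin n → ℤˣ) → ℝ) (i : Fin n) : cb f 0 {i} = fourier f {i} := by
  unfold cb
  rw [Finset.sum_eq_single {i}]
  · simp
  · intro S _ hS
    split_ifs with h
    · have hne : (S \ {i}).card ≠ 0 := by
        intro h0
        rw [Finset.card_eq_zero, Finset.sdiff_eq_empty_iff_subset] at h0
        exact hS (Finset.Subset.antisymm h0 h)
      rw [zero_pow hne, mul_zero]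
    · rfl
  · intro h
    exact absurd (Finset.mem_univ _) h

/-- The sum of the first-level Fourier coefficients is `p'(0)`. -/
theorem pPoly_derivative_eval_zero (f : (Fin n → ℤˣ) → ℝ) :
    (Polynomial.derivative (pPoly f)).eval 0 = ∑ i : Fin n, fourier f {i} := by
  rw [pPoly_derivative_eval]
  exact Finset.sum_congr rfl (fun i _ => cb_zero_singleton f i)

end Vale.Agent.Helper17.GS
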