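import Mathlib

/-!
# Fourier coefficients on the discrete cube (definition used by the P047 hand-in)

The cube `{-1,1}^n` is modelled as `Fin n → ℤˣ` (the units of the integers are exactly
`1` and `-1`).
-/

namespace Vale.Agent.Helper17.GS

/-- The Fourier coefficient of `f` at `S`: the average over the cube `{-1,1}^n`
(modelled as `Fin n → ℤˣ`) of `f x * ∏ i ∈ S, x i`. -/
noncomputable def fourier {n : ℕ} (f : (Fin n → ℤˣ) → ℝ) (S : Finset (Fin n)) : ℝ :=
  (∑ x : Fin n → ℤˣ, f x * ∏ i ∈ S, ((x i : ℤ) : ℝ)) / 2 ^ n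

end Vale.Agent.Helper17.GS
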