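import Vale.Agent.Helper17.GSCube
import Vale.Agent.Helper17.GSCheb

/-!
# A constant-factor improvement of the level-one bound (P047)

For a Boolean function `f` of degree at most `d` the polynomial `p(t) = ∑ S, fourier f S * t^|S|`
satisfies `|p| ≤ 1` on `[-1,1]` and `(1 - t^2) |p'(t)| ≤ d (1 - p(t)^2)`.  Integrating the
differential inequality bounds the odd part of `p` away from `±1` near the origin, and the
interpolation inequality of `GSCheb` then improves Bernstein's bound `p'(0) ≤ d`.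
-/

namespace Vale.Agent.Helper17.GS

open Polynomial Real
open Polynomial.Chebyshev

/-- Comparison principle: if `(1 - t^2) u'(t) ≤ 2 d (1 - u(t))` on `[0,1)` then
`(1 - u(t)) ((1+t)/(1-t))^d` is nondecreasing there. -/
theorem ode_weak (u u' : ℝ → ℝ) (d : ℕ) (hd : 1 ≤ d)
    (hu : ∀ t, HasDerivAt u (u' t) t)
    (hineq : ∀ t ∈ Set.Ico (0 : ℝ) 1, (1 - t ^ 2) * u' t ≤ 2 * d * (1 - u t))
    (s : ℝ) (hs0 : 0 ≤ s) (hs1 : s < 1) :
    1 - u 0 ≤ (1 - u s) * ((1 + s) / (1 - s)) ^ d := by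
  have hderiv : ∀ t : ℝ, t < 1 → HasDerivAt (fun t => (1 - u t) * ((1 + t) / (1 - t)) ^ d)
      (-(u' t) * ((1 + t) / (1 - t)) ^ d
        + (1 - u t) * (d * ((1 + t) / (1 - t)) ^ (d - 1) * (2 / (1 - t) ^ 2))) t := by
    intro t ht
    have h1 : HasDerivAt (fun t => 1 - u t) (-(u' t)) t := (hu t).const_sub 1
    have h2 : HasDerivAt (fun t : ℝ => (1 + t) / (1 - t)) (2 / (1 - t) ^ 2) t := by
      have ha : HasDerivAt (fun t : ℝ => 1 + t) 1 t := by
        simpa using (hasDerivAt_id t).const_add 1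
      have hb : HasDerivAt (fun t : ℝ => 1 - t) (-1) t := by
        simpa using (hasDerivAt_id t).const_sub 1
      have hne : (1 - t) ≠ 0 := by linarith
      have h := ha.div hb hne
      have heq : (2 / (1 - t) ^ 2 : ℝ) = (1 * (1 - t) - (1 + t) * -1) / (1 - t) ^ 2 := by ring
      rw [heq]
      exact h
    exact h1.mul (h2.pow d)
  have hmono : MonotoneOn (fun t => (1 - u t) * ((1 + t) / (1 - t)) ^ d) (Set.Ico (0 : ℝ) 1) := by
    refine monotoneOn_of_hasDerivWithinAt_nonneg (convex_Ico 0 1)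
      (f' := fun t => -(u' t) * ((1 + t) / (1 - t)) ^ d
        + (1 - u t) * (d * ((1 + t) / (1 - t)) ^ (d - 1) * (2 / (1 - t) ^ 2))) ?_ ?_ ?_
    · intro t ht
      exact (hderiv t ht.2).continuousAt.continuousWithinAt
    · intro t ht
      rw [interior_Ico] at ht
      exact (hderiv t ht.2).hasDerivWithinAt
    · intro t ht
      rw [interior_Ico] at ht
      have h1t : 0 < 1 - t := by linarith [ht.2]
      have hb : 0 < (1 + t) / (1 - t) := div_pos (by linarith [ht.1]) h1t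
      have hpow : ((1 + t) / (1 - t)) ^ d
          = ((1 + t) / (1 - t)) ^ (d - 1) * ((1 + t) / (1 - t)) := by
        rw [← pow_succ, Nat.sub_add_cancel hd]
      have hc : 0 ≤ ((1 + t) / (1 - t)) ^ (d - 1) := pow_nonneg hb.le _
      have key : -(u' t) * ((1 + t) / (1 - t)) ^ d
            + (1 - u t) * (d * ((1 + t) / (1 - t)) ^ (d - 1) * (2 / (1 - t) ^ 2))
          = ((1 + t) / (1 - t)) ^ (d - 1) / (1 - t) ^ 2
            * (2 * d * (1 - u t) - (1 - t ^ 2) * u' t) := by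
        rw [hpow]
        generalize ((1 + t) / (1 - t)) ^ (d - 1) = c
        field_simp
        ring
      show 0 ≤ -(u' t) * ((1 + t) / (1 - t)) ^ d
            + (1 - u t) * (d * ((1 + t) / (1 - t)) ^ (d - 1) * (2 / (1 - t) ^ 2))
      rw [key]
      exact mul_nonneg (div_nonneg hc (sq_nonneg _))
        (sub_nonneg.mpr (hineq t ⟨ht.1.le, ht.2⟩))
  have h := hmono ⟨le_refl 0, by norm_num⟩ ⟨hs0, hs1⟩ hs0
  simpa using h

variable {n : ℕ}

/-- The four one-sided consequences of the differential inequality for `p = pPoly f`: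
`1 - ε p(0) ≤ (1 - ε p(σ s)) ((1+s)/(1-s))^d` for signs `ε, σ`. -/
theorem ode_apply (f : (Fin n → ℤˣ) → ℝ) (hf : ∀ x, f x = 1 ∨ f x = -1) (d : ℕ) (hd1 : 1 ≤ d)
    (hdeg : ∀ S : Finset (Fin n), d < S.card → fourier f S = 0)
    (ε σ : ℝ) (hε : ε = 1 ∨ ε = -1) (hσ : σ = 1 ∨ σ = -1)
    (s : ℝ) (hs0 : 0 ≤ s) (hs1 : s < 1) :
    1 - ε * (pPoly f).eval 0 ≤ (1 - ε * (pPoly f).eval (σ * s)) * ((1 + s) / (1 - s)) ^ d := by
  have h := ode_weak (fun t => ε * (pPoly f).eval (σ * t))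
    (fun t => ε * ((derivative (pPoly f)).eval (σ * t) * σ)) d hd1 ?_ ?_ s hs0 hs1
  · simpa using h
  · intro t
    have h1 : HasDerivAt (fun y : ℝ => σ * y) σ t := hasDerivAt_const_mul σ
    have h2 := ((pPoly f).hasDerivAt (σ * t)).comp t h1
    exact h2.const_mul ε
  · intro t ht
    have hεabs : |ε| = 1 := by rcases hε with h | h <;> rw [h] <;> simp
    have hσabs : |σ| = 1 := by rcases hσ with h | h <;> rw [h] <;> simp
    have hx : |σ * t| ≤ 1 := by
      rw [abs_mul, hσabs, one_mul, abs_of_nonneg ht.1]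
      exact ht.2.le
    have hk := key_B f hf d hdeg (σ * t) hx
    have hsq : (σ * t) ^ 2 = t ^ 2 := by
      rcases hσ with h | h <;> rw [h] <;> ring
    rw [hsq] at hk
    have h1t : 0 ≤ 1 - t ^ 2 := by nlinarith [ht.1, ht.2]
    have habs : ε * ((derivative (pPoly f)).eval (σ * t) * σ)
        ≤ |(derivative (pPoly f)).eval (σ * t)| := by
      calc ε * ((derivative (pPoly f)).eval (σ * t) * σ)
          ≤ |ε * ((derivative (pPoly f)).eval (σ * t) * σ)| := le_abs_self _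
        _ = |(derivative (pPoly f)).eval (σ * t)| := by
            rw [abs_mul, abs_mul, hεabs, hσabs, one_mul, mul_one]
    have hp := abs_le.mp (pPoly_abs_le_one f hf (σ * t) hx)
    have hd0 : (0 : ℝ) ≤ d := Nat.cast_nonneg d
    have h3 : (1 - t ^ 2) * (ε * ((derivative (pPoly f)).eval (σ * t) * σ))
        ≤ d * (1 - (pPoly f).eval (σ * t) ^ 2) :=
      (mul_le_mul_of_nonneg_left habs h1t).trans hk
    show (1 - t ^ 2) * (ε * ((derivative (pPoly f)).eval (σ * t) * σ))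
        ≤ 2 * d * (1 - ε * (pPoly f).eval (σ * t))
    refine h3.trans ?_
    rcases hε with h | h <;> rw [h]
    · nlinarith [mul_nonneg hd0 (sq_nonneg (1 - (pPoly f).eval (σ * t)))]
    · nlinarith [mul_nonneg hd0 (sq_nonneg (1 + (pPoly f).eval (σ * t)))]

/-- The odd part of a polynomial of degree at most `d`. -/
noncomputable def oddPart (P : ℝ[X]) (d : ℕ) : ℝ[X] :=
  ∑ k ∈ (Finset.range (d + 1)).filter (fun k => Odd k), C (P.coeff k) * X ^ k

theorem oddPart_eval (P : ℝ[X]) (d : ℕ) (hP : P.natDegree ≤ d) (t : ℝ) :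
    (oddPart P d).eval t = (P.eval t - P.eval (-t)) / 2 := by
  have h1 : ∀ x : ℝ, P.eval x = ∑ k ∈ Finset.range (d + 1), P.coeff k * x ^ k := fun x =>
    Polynomial.eval_eq_sum_range' (Nat.lt_succ_of_le hP) x
  rw [h1 t, h1 (-t), ← Finset.sum_sub_distrib, Finset.sum_div]
  unfold oddPart
  rw [Polynomial.eval_finsetSum, Finset.sum_filter]
  refine Finset.sum_congr rfl (fun k _ => ?_)
  by_cases hk : Odd k
  · rw [if_pos hk, Odd.neg_pow hk]
    simp
  · rw [if_neg hk, Even.neg_pow (Nat.not_odd_iff_even.mp hk)]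
    ring

theorem oddPart_natDegree (P : ℝ[X]) (d m : ℕ) (hm : ∀ k, k ≤ d → Odd k → k ≤ m) :
    (oddPart P d).natDegree ≤ m := by
  unfold oddPart
  refine Polynomial.natDegree_sum_le_of_forall_le _ _ (fun k hk => ?_)
  rw [Finset.mem_filter, Finset.mem_range] at hk
  exact (Polynomial.natDegree_C_mul_X_pow_le _ _).trans (hm k (Nat.lt_succ_iff.mp hk.1) hk.2)

theorem oddPart_eval_zero (P : ℝ[X]) (d : ℕ) (hP : P.natDegree ≤ d) :
    (oddPart P d).eval 0 = 0 := by
  rw [oddPart_eval P d hP]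
  simp

theorem oddPart_derivative_zero (P : ℝ[X]) (d : ℕ) (hP : P.natDegree ≤ d) :
    (derivative (oddPart P d)).eval 0 = (derivative P).eval 0 := by
  have h1 : HasDerivAt (fun t => (oddPart P d).eval t) ((derivative (oddPart P d)).eval 0) 0 :=
    (oddPart P d).hasDerivAt 0
  have h2 : HasDerivAt (fun t : ℝ => (P.eval t - P.eval (-t)) / 2)
      (((derivative P).eval 0 - (derivative P).eval (-0) * (-1)) / 2) 0 := by
    have ha : HasDerivAt (fun t : ℝ => P.eval (-t)) ((derivative P).eval (-0) * (-1)) 0 :=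
      (P.hasDerivAt (-0)).comp 0 (hasDerivAt_neg 0)
    exact ((P.hasDerivAt 0).sub ha).div_const 2
  have h3 : (fun t => (oddPart P d).eval t) = (fun t : ℝ => (P.eval t - P.eval (-t)) / 2) :=
    funext (fun t => oddPart_eval P d hP t)
  rw [h3] at h1
  have h4 := h1.unique h2
  rw [h4]
  simp

/-- The odd part of `p = pPoly f` stays away from `±1` at `±s`. -/
theorem odd_bound (f : (Fin n → ℤˣ) → ℝ) (hf : ∀ x, f x = 1 ∨ f x = -1) (d : ℕ) (hd1 : 1 ≤ d)
    (hdeg : ∀ S : Finset (Fin n), d < S.card → fourier f S = 0)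
    (s : ℝ) (hs0 : 0 ≤ s) (hs1 : s < 1) :
    |(oddPart (pPoly f) d).eval s| ≤ 1 - 1 / ((1 + s) / (1 - s)) ^ d
    ∧ |(oddPart (pPoly f) d).eval (-s)| ≤ 1 - 1 / ((1 + s) / (1 - s)) ^ d := by
  have hP := pPoly_natDegree_le f d hdeg
  have hR : 0 < ((1 + s) / (1 - s)) ^ d :=
    pow_pos (div_pos (by linarith) (by linarith)) d
  have h1 := ode_apply f hf d hd1 hdeg 1 1 (Or.inl rfl) (Or.inl rfl) s hs0 hs1
  have h2 := ode_apply f hf d hd1 hdeg (-1) (-1) (Or.inr rfl) (Or.inr rfl) s hs0 hs1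
  have h3 := ode_apply f hf d hd1 hdeg 1 (-1) (Or.inl rfl) (Or.inr rfl) s hs0 hs1
  have h4 := ode_apply f hf d hd1 hdeg (-1) 1 (Or.inr rfl) (Or.inl rfl) s hs0 hs1
  simp only [one_mul, neg_mul, sub_neg_eq_add] at h1 h2 h3 h4
  generalize ((1 + s) / (1 - s)) ^ d = R at *
  generalize (pPoly f).eval 0 = a at *
  have e1 : (oddPart (pPoly f) d).eval s = ((pPoly f).eval s - (pPoly f).eval (-s)) / 2 :=
    oddPart_eval _ d hP s
  have e2 : (oddPart (pPoly f) d).eval (-s) = ((pPoly f).eval (-s) - (pPoly f).eval s) / 2 := by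
    rw [oddPart_eval _ d hP (-s), neg_neg]
  rw [e1, e2]
  generalize (pPoly f).eval s = u at *
  generalize (pPoly f).eval (-s) = v at *
  have k1 : 1 / R ≤ 1 - (u - v) / 2 := by
    rw [div_le_iff₀ hR]
    nlinarith
  have k2 : 1 / R ≤ 1 - (v - u) / 2 := by
    rw [div_le_iff₀ hR]
    nlinarith
  constructor
  · rw [abs_le]
    constructor <;> linarith
  · rw [abs_le]
    constructor <;> linarith

theorem exp_five_le : Real.exp 5 ≤ 149 := by
  have he : Real.exp 5 = Real.exp 1 ^ 5 := by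
    rw [← Real.exp_nat_mul]
    norm_num
  have h1 := Real.exp_one_lt_d9
  rw [he]
  calc Real.exp 1 ^ 5 ≤ (2.7182818286 : ℝ) ^ 5 := pow_le_pow_left₀ (Real.exp_pos 1).le h1.le 5
    _ ≤ 149 := by norm_num

/-- `(1+s)/(1-s) ≤ exp (s + s/(1-s))` for `0 ≤ s < 1`. -/
theorem ratio_le_exp (s : ℝ) (hs1 : s < 1) :
    (1 + s) / (1 - s) ≤ Real.exp (s + s / (1 - s)) := by
  have h1s : 0 < 1 - s := by linarith
  have ha : 1 + s ≤ Real.exp s := by linarith [Real.add_one_le_exp s]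
  have hb : 1 / (1 - s) ≤ Real.exp (s / (1 - s)) := by
    have h := Real.add_one_le_exp (s / (1 - s))
    have e : s / (1 - s) + 1 = 1 / (1 - s) := by
      field_simp
      ring
    rw [e] at h
    exact h
  rw [Real.exp_add, div_eq_mul_one_div]
  exact mul_le_mul ha hb (by positivity) (Real.exp_pos s).le

/-- Numerical input for degrees at least five. -/
theorem numeric_large (k : ℕ) (hk : 2 ≤ k) (d : ℕ) (hd : d ≤ 2 * k + 2) :
    0 < node (2 * k + 1) k ∧ node (2 * k + 1) k < 1 ∧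
    ((1 + node (2 * k + 1) k) / (1 - node (2 * k + 1) k)) ^ d
      * (((2 * k + 1 : ℕ) : ℝ) * node (2 * k + 1) k) ^ 2 ≤ 400 := by
  rw [node_central_eq_sin]
  have hm5 : (5 : ℝ) ≤ ((2 * k + 1 : ℕ) : ℝ) := by
    have : (2 : ℝ) ≤ k := by exact_mod_cast hk
    push_cast
    linarith
  generalize hm : ((2 * k + 1 : ℕ) : ℝ) = m at *
  have hdm : (d : ℝ) ≤ m + 1 := by
    have : (d : ℝ) ≤ ((2 * k + 2 : ℕ) : ℝ) := by exact_mod_cast hd
    rw [← hm]
    push_cast at this ⊢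
    linarith
  have hpi1 := Real.pi_gt_d2
  have hpi2 := Real.pi_lt_d2
  have hx0 : 0 < π / (2 * m) := by positivity
  have hmx : m * (π / (2 * m)) = π / 2 := by
    field_simp
  generalize π / (2 * m) = x at *
  have hx1 : x ≤ 0.315 := by nlinarith
  have hs0 : 0 < sin x := Real.sin_pos_of_pos_of_lt_pi hx0 (by linarith)
  have hsx : sin x ≤ x := Real.sin_le hx0.le
  generalize sin x = s at *
  have hs1 : s < 1 := by linarith
  refine ⟨hs0, hs1, ?_⟩
  have hms : m * s ≤ 1.575 := by nlinarith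
  have hms0 : 0 ≤ m * s := by positivity
  have hds : (d : ℝ) * s ≤ 1.89 := by nlinarith
  have hds0 : 0 ≤ (d : ℝ) * s := by positivity
  have h1s : (0.685 : ℝ) ≤ 1 - s := by linarith
  have hy : (d : ℝ) * (s + s / (1 - s)) ≤ 5 := by
    have h2 : (d : ℝ) * s / (1 - s) ≤ 2.76 := by
      rw [div_le_iff₀ (by linarith)]
      nlinarith
    have e : (d : ℝ) * (s + s / (1 - s)) = (d : ℝ) * s + (d : ℝ) * s / (1 - s) := by ring
    rw [e]
    linarith
  have hρ0 : 0 ≤ (1 + s) / (1 - s) := div_nonneg (by linarith) (by linarith)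
  have hR : ((1 + s) / (1 - s)) ^ d ≤ 149 := by
    calc ((1 + s) / (1 - s)) ^ d ≤ Real.exp (s + s / (1 - s)) ^ d :=
          pow_le_pow_left₀ hρ0 (ratio_le_exp s hs1) d
      _ = Real.exp ((d : ℝ) * (s + s / (1 - s))) := by rw [Real.exp_nat_mul]
      _ ≤ Real.exp 5 := Real.exp_le_exp.mpr hy
      _ ≤ 149 := exp_five_le
  have hR0 : 0 ≤ ((1 + s) / (1 - s)) ^ d := pow_nonneg hρ0 d
  have hsq : (m * s) ^ 2 ≤ 2.481 := by nlinarith
  have hsq0 : 0 ≤ (m * s) ^ 2 := sq_nonneg _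
  calc ((1 + s) / (1 - s)) ^ d * (m * s) ^ 2 ≤ 149 * 2.481 :=
        mul_le_mul hR hsq hsq0 (by norm_num)
    _ ≤ 400 := by norm_num

/-- Numerical input for degrees three and four. -/
theorem numeric_three (d : ℕ) (hd : d ≤ 4) :
    0 < node (2 * 1 + 1) 1 ∧ node (2 * 1 + 1) 1 < 1 ∧
    ((1 + node (2 * 1 + 1) 1) / (1 - node (2 * 1 + 1) 1)) ^ d
      * (((2 * 1 + 1 : ℕ) : ℝ) * node (2 * 1 + 1) 1) ^ 2 ≤ 400 := by
  have h : node (2 * 1 + 1) 1 = 1 / 2 := by
    rw [node_central_eq_sin]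
    have e : π / (2 * ((2 * 1 + 1 : ℕ) : ℝ)) = π / 6 := by
      push_cast
      ring
    rw [e, Real.sin_pi_div_six]
  rw [h]
  refine ⟨by norm_num, by norm_num, ?_⟩
  have h3 : ((1 + (1 / 2 : ℝ)) / (1 - 1 / 2)) = 3 := by norm_num
  rw [h3]
  have h4 : (3 : ℝ) ^ d ≤ 3 ^ 4 := pow_le_pow_right₀ (by norm_num) hd
  have h5 : (((2 * 1 + 1 : ℕ) : ℝ) * (1 / 2)) ^ 2 = 9 / 4 := by norm_num
  rw [h5]
  nlinarith

/-- The signed level-one sum of a Boolean function of degree at most `d ≥ 2` is at most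
`(199/200) d`. -/
theorem level_one_signed (f : (Fin n → ℤˣ) → ℝ) (hf : ∀ x, f x = 1 ∨ f x = -1) (d : ℕ)
    (hd : 2 ≤ d) (hdeg : ∀ S : Finset (Fin n), d < S.card → fourier f S = 0) :
    ∑ i : Fin n, fourier f {i} ≤ 199 / 200 * (d : ℝ) := by
  have hP := pPoly_natDegree_le f d hdeg
  obtain ⟨k, hk⟩ : ∃ k, d = 2 * k + 1 ∨ d = 2 * k + 2 := ⟨(d - 1) / 2, by omega⟩
  have hQdeg : (oddPart (pPoly f) d).natDegree ≤ 2 * k + 1 := by
    refine oddPart_natDegree _ d _ (fun j hj hodd => ?_)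
    obtain ⟨r, hr⟩ := hodd
    omega
  have hQ0 := oddPart_eval_zero (pPoly f) d hP
  have hQbd : ∀ x ∈ Set.Icc (-1 : ℝ) 1, |(oddPart (pPoly f) d).eval x| ≤ 1 := by
    intro x hx
    rw [oddPart_eval _ d hP]
    have hx1 : |x| ≤ 1 := abs_le.mpr ⟨hx.1, hx.2⟩
    have hx2 : |-x| ≤ 1 := by rwa [abs_neg]
    have h1 := abs_le.mp (pPoly_abs_le_one f hf x hx1)
    have h2 := abs_le.mp (pPoly_abs_le_one f hf (-x) hx2)
    rw [abs_le]
    constructor <;> linarith [h1.1, h1.2, h2.1, h2.2]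
  have hQ' : (derivative (oddPart (pPoly f) d)).eval 0 = ∑ i : Fin n, fourier f {i} := by
    rw [oddPart_derivative_zero _ d hP, pPoly_derivative_eval_zero]
  have hmd : ((2 * k + 1 : ℕ) : ℝ) ≤ (d : ℝ) := by
    have : 2 * k + 1 ≤ d := by omega
    exact_mod_cast this
  rw [← hQ']
  refine (le_abs_self _).trans ?_
  rcases Nat.eq_zero_or_pos k with hk0 | hk1
  · subst hk0
    have h := cheb_bound_basic 1 ⟨0, rfl⟩ _ hQdeg hQ0 hQbd
    have hd2 : (2 : ℝ) ≤ d := by exact_mod_cast hd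
    refine h.trans ?_
    push_cast
    linarith
  · have hnum : 0 < node (2 * k + 1) k ∧ node (2 * k + 1) k < 1 ∧
        ((1 + node (2 * k + 1) k) / (1 - node (2 * k + 1) k)) ^ d
          * (((2 * k + 1 : ℕ) : ℝ) * node (2 * k + 1) k) ^ 2 ≤ 400 := by
      rcases Nat.lt_or_ge k 2 with hk2 | hk2
      · have hk1' : k = 1 := by omega
        subst hk1'
        exact numeric_three d (by omega)
      · exact numeric_large k hk2 d (by omega)
    obtain ⟨hs0, hs1, hnum⟩ := hnum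
    obtain ⟨hβ1, hβ2⟩ := odd_bound f hf d (by omega) hdeg (node (2 * k + 1) k) hs0.le hs1
    have h := cheb_bound_central k hk1 _ hQdeg hQ0 hQbd _ hβ1 hβ2
    refine h.trans ?_
    have hm0 : (0 : ℝ) < ((2 * k + 1 : ℕ) : ℝ) := by positivity
    generalize ((2 * k + 1 : ℕ) : ℝ) = m at *
    generalize node (2 * k + 1) k = s at *
    have hR : 0 < ((1 + s) / (1 - s)) ^ d :=
      pow_pos (div_pos (by linarith) (by linarith)) d
    generalize ((1 + s) / (1 - s)) ^ d = R at *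
    have hden : 0 < m * s ^ 2 := by positivity
    have hsave : m / 200 ≤ 2 * (1 - (1 - 1 / R)) / (m * s ^ 2) := by
      rw [le_div_iff₀ hden]
      have e : 2 * (1 - (1 - 1 / R)) = 2 / R := by ring
      rw [e, le_div_iff₀ hR]
      nlinarith
    linarith

/-- Flipping coordinates multiplies a Fourier coefficient by the character of the flip. -/
theorem fourier_flip (f : (Fin n → ℤˣ) → ℝ) (ε : Fin n → ℤˣ) (S : Finset (Fin n)) :
    fourier (fun x => f (ε * x)) S = (∏ i ∈ S, ((ε i : ℤ) : ℝ)) * fourier f S := by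
  have hsq : (∏ i ∈ S, ((ε i : ℤ) : ℝ)) * (∏ i ∈ S, ((ε i : ℤ) : ℝ)) = 1 := by
    rw [← Finset.prod_mul_distrib]
    refine Finset.prod_eq_one (fun i _ => ?_)
    rcases Int.units_eq_one_or (ε i) with h | h <;> simp [h]
  unfold fourier
  rw [mul_div_assoc', Finset.mul_sum]
  congr 1
  refine Fintype.sum_equiv (Equiv.mulLeft ε) _ _ (fun x => ?_)
  have hprod : ∏ i ∈ S, (((Equiv.mulLeft ε x) i : ℤ) : ℝ)
      = (∏ i ∈ S, ((ε i : ℤ) : ℝ)) * ∏ i ∈ S, ((x i : ℤ) : ℝ) := by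
    rw [← Finset.prod_mul_distrib]
    refine Finset.prod_congr rfl (fun i _ => ?_)
    simp
  rw [hprod]
  have e : (Equiv.mulLeft ε) x = ε * x := rfl
  rw [e]
  calc f (ε * x) * ∏ i ∈ S, ((x i : ℤ) : ℝ)
      = ((∏ i ∈ S, ((ε i : ℤ) : ℝ)) * (∏ i ∈ S, ((ε i : ℤ) : ℝ)))
          * (f (ε * x) * ∏ i ∈ S, ((x i : ℤ) : ℝ)) := by rw [hsq, one_mul]
    _ = _ := by ring

/-- The level-one sum of absolute values of a Boolean function of degree at most `d ≥ 2` is at
most `(199/200) d`. -/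
theorem level_one_abs (f : (Fin n → ℤˣ) → ℝ) (hf : ∀ x, f x = 1 ∨ f x = -1) (d : ℕ)
    (hd : 2 ≤ d) (hdeg : ∀ S : Finset (Fin n), d < S.card → fourier f S = 0) :
    ∑ i : Fin n, |fourier f {i}| ≤ 199 / 200 * (d : ℝ) := by
  classical
  have key : ∀ i : Fin n,
      fourier (fun x => f ((fun j => if 0 ≤ fourier f {j} then (1 : ℤˣ) else -1) * x)) {i}
        = |fourier f {i}| := by
    intro i
    rw [fourier_flip, Finset.prod_singleton]
    by_cases h : 0 ≤ fourier f {i}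
    · rw [if_pos h, abs_of_nonneg h]
      simp
    · rw [if_neg h, abs_of_neg (not_le.mp h)]
      simp
  have h := level_one_signed
    (fun x => f ((fun j => if 0 ≤ fourier f {j} then (1 : ℤˣ) else -1) * x))
    (fun x => hf _) d hd (fun S hS => by rw [fourier_flip, hdeg S hS, mul_zero])
  rw [Finset.sum_congr rfl (fun i _ => key i)] at h
  exact h

end Vale.Agent.Helper17.GS
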