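import Vale.Agent.Helper17.GSMain

/-!
# The sharper comparison argument (P047)

The differential inequality `(1 - t^2) |u'| ≤ d (1 - u^2)` is integrated exactly:
`((1 - u)/(1 + u)) ((1+t)/(1-t))^d` is nondecreasing.  This gives the bound
`(R - 1)/(R + 1)`, `R = ((1+s)/(1-s))^d`, for the odd part of `p` at `±s`.
-/

namespace Vale.Agent.Helper17.GS

open Polynomial Real
open Polynomial.Chebyshev

/-- Exact comparison: if `(1 - t^2) |u'(t)| ≤ d (1 - u(t)^2)` and `|u| ≤ 1` on `[0,1)` and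
`-1 < u 0`, then `(1 - u 0)(1 + u s) ≤ (1 - u s)(1 + u 0) ((1+s)/(1-s))^d`. -/
theorem ode_strong (u u' : ℝ → ℝ) (d : ℕ) (hd : 1 ≤ d)
    (hu : ∀ t, HasDerivAt u (u' t) t)
    (hbd : ∀ t ∈ Set.Ico (0 : ℝ) 1, |u t| ≤ 1)
    (hineq : ∀ t ∈ Set.Ico (0 : ℝ) 1, (1 - t ^ 2) * |u' t| ≤ d * (1 - u t ^ 2))
    (h0 : -1 < u 0) (s : ℝ) (hs0 : 0 ≤ s) (hs1 : s < 1) :
    (1 - u 0) * (1 + u s) ≤ (1 - u s) * (1 + u 0) * ((1 + s) / (1 - s)) ^ d := by
  have hd0 : (0 : ℝ) ≤ d := Nat.cast_nonneg d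
  -- positivity of `1 + u` on `[0,1)`
  have hpos : ∀ t ∈ Set.Ico (0 : ℝ) 1, 0 < 1 + u t := by
    intro t ht
    have h := ode_weak (fun t => -u t) (fun t => -u' t) d hd (fun t => (hu t).neg) ?_ t ht.1 ht.2
    · have hR : 0 < ((1 + t) / (1 - t)) ^ d :=
        pow_pos (div_pos (by linarith [ht.1]) (by linarith [ht.2])) d
      simp only [sub_neg_eq_add] at h
      by_contra hneg
      rw [not_lt] at hneg
      have : (1 + u t) * ((1 + t) / (1 - t)) ^ d ≤ 0 :=
        mul_nonpos_of_nonpos_of_nonneg hneg hR.le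
      linarith
    · intro r hr
      have h1 := hineq r hr
      have h2 := abs_le.mp (hbd r hr)
      have h1r : 0 ≤ 1 - r ^ 2 := by nlinarith [hr.1, hr.2]
      have h3 : (1 - r ^ 2) * (-u' r) ≤ (1 - r ^ 2) * |u' r| :=
        mul_le_mul_of_nonneg_left (neg_le_abs _) h1r
      show (1 - r ^ 2) * (-u' r) ≤ 2 * d * (1 - -u r)
      nlinarith [mul_nonneg hd0 (sq_nonneg (1 + u r))]
  have hderiv : ∀ t ∈ Set.Ico (0 : ℝ) 1,
      HasDerivAt (fun t => (1 - u t) / (1 + u t) * ((1 + t) / (1 - t)) ^ d)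
      ((-(u' t) * (1 + u t) - (1 - u t) * u' t) / (1 + u t) ^ 2 * ((1 + t) / (1 - t)) ^ d
        + (1 - u t) / (1 + u t) * (d * ((1 + t) / (1 - t)) ^ (d - 1) * (2 / (1 - t) ^ 2))) t := by
    intro t ht
    have h1 : HasDerivAt (fun t => 1 - u t) (-(u' t)) t := (hu t).const_sub 1
    have h1' : HasDerivAt (fun t => 1 + u t) (u' t) t := (hu t).const_add 1
    have h2 : HasDerivAt (fun t : ℝ => (1 + t) / (1 - t)) (2 / (1 - t) ^ 2) t := by
      have ha : HasDerivAt (fun t : ℝ => 1 + t) 1 t := by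
        simpa using (hasDerivAt_id t).const_add 1
      have hb : HasDerivAt (fun t : ℝ => 1 - t) (-1) t := by
        simpa using (hasDerivAt_id t).const_sub 1
      have hne : (1 - t) ≠ 0 := by linarith [ht.2]
      have h := ha.div hb hne
      have heq : (2 / (1 - t) ^ 2 : ℝ) = (1 * (1 - t) - (1 + t) * -1) / (1 - t) ^ 2 := by ring
      rw [heq]
      exact h
    exact (h1.div h1' (hpos t ht).ne').mul (h2.pow d)
  have hmono : MonotoneOn (fun t => (1 - u t) / (1 + u t) * ((1 + t) / (1 - t)) ^ d)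
      (Set.Ico (0 : ℝ) 1) := by
    refine monotoneOn_of_hasDerivWithinAt_nonneg (convex_Ico 0 1)
      (f' := fun t => (-(u' t) * (1 + u t) - (1 - u t) * u' t) / (1 + u t) ^ 2
          * ((1 + t) / (1 - t)) ^ d
        + (1 - u t) / (1 + u t) * (d * ((1 + t) / (1 - t)) ^ (d - 1) * (2 / (1 - t) ^ 2)))
      ?_ ?_ ?_
    · intro t ht
      exact (hderiv t ht).continuousAt.continuousWithinAt
    · intro t ht
      rw [interior_Ico] at ht
      exact (hderiv t ⟨ht.1.le, ht.2⟩).hasDerivWithinAt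
    · intro t ht
      rw [interior_Ico] at ht
      have ht' : t ∈ Set.Ico (0 : ℝ) 1 := ⟨ht.1.le, ht.2⟩
      have h1t : 0 < 1 - t := by linarith [ht.2]
      have hb : 0 < (1 + t) / (1 - t) := div_pos (by linarith [ht.1]) h1t
      have hpow : ((1 + t) / (1 - t)) ^ d
          = ((1 + t) / (1 - t)) ^ (d - 1) * ((1 + t) / (1 - t)) := by
        rw [← pow_succ, Nat.sub_add_cancel hd]
      have hc : 0 ≤ ((1 + t) / (1 - t)) ^ (d - 1) := pow_nonneg hb.le _
      have hp := hpos t ht'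
      have key : (-(u' t) * (1 + u t) - (1 - u t) * u' t) / (1 + u t) ^ 2
              * ((1 + t) / (1 - t)) ^ d
            + (1 - u t) / (1 + u t) * (d * ((1 + t) / (1 - t)) ^ (d - 1) * (2 / (1 - t) ^ 2))
          = 2 * ((1 + t) / (1 - t)) ^ (d - 1) / ((1 + u t) ^ 2 * (1 - t) ^ 2)
            * (d * (1 - u t ^ 2) - (1 - t ^ 2) * u' t) := by
        rw [hpow]
        generalize ((1 + t) / (1 - t)) ^ (d - 1) = c
        field_simp
        ring
      show 0 ≤ (-(u' t) * (1 + u t) - (1 - u t) * u' t) / (1 + u t) ^ 2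
              * ((1 + t) / (1 - t)) ^ d
            + (1 - u t) / (1 + u t) * (d * ((1 + t) / (1 - t)) ^ (d - 1) * (2 / (1 - t) ^ 2))
      rw [key]
      have h1 := hineq t ht'
      have h1r : 0 ≤ 1 - t ^ 2 := by nlinarith [ht.1, ht.2]
      have h3 : (1 - t ^ 2) * u' t ≤ (1 - t ^ 2) * |u' t| :=
        mul_le_mul_of_nonneg_left (le_abs_self _) h1r
      exact mul_nonneg (div_nonneg (mul_nonneg (by norm_num) hc) (by positivity))
        (by linarith)
  have h := hmono ⟨le_refl 0, by norm_num⟩ ⟨hs0, hs1⟩ hs0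
  have hp0 : 0 < 1 + u 0 := by linarith
  have hps := hpos s ⟨hs0, hs1⟩
  simp only [add_zero, sub_zero, div_one, one_pow, mul_one] at h
  rw [div_mul_eq_mul_div, div_le_div_iff₀ hp0 hps] at h
  linarith

variable {n : ℕ}

/-- The exact comparison applied to `u(t) = ε p(σ t)`, `p = pPoly f`. -/
theorem ode_apply_strong (f : (Fin n → ℤˣ) → ℝ) (hf : ∀ x, f x = 1 ∨ f x = -1) (d : ℕ)
    (hd1 : 1 ≤ d) (hdeg : ∀ S : Finset (Fin n), d < S.card → fourier f S = 0)
    (ε σ : ℝ) (hε : ε = 1 ∨ ε = -1) (hσ : σ = 1 ∨ σ = -1)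
    (h0 : -1 < ε * (pPoly f).eval 0) (s : ℝ) (hs0 : 0 ≤ s) (hs1 : s < 1) :
    (1 - ε * (pPoly f).eval 0) * (1 + ε * (pPoly f).eval (σ * s))
      ≤ (1 - ε * (pPoly f).eval (σ * s)) * (1 + ε * (pPoly f).eval 0)
        * ((1 + s) / (1 - s)) ^ d := by
  have hεabs : |ε| = 1 := by rcases hε with h | h <;> rw [h] <;> simp
  have hσabs : |σ| = 1 := by rcases hσ with h | h <;> rw [h] <;> simp
  have hεsq : ε ^ 2 = 1 := by rcases hε with h | h <;> rw [h] <;> norm_num
  have hx : ∀ t ∈ Set.Ico (0 : ℝ) 1, |σ * t| ≤ 1 := by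
    intro t ht
    rw [abs_mul, hσabs, one_mul, abs_of_nonneg ht.1]
    exact ht.2.le
  have h := ode_strong (fun t => ε * (pPoly f).eval (σ * t))
    (fun t => ε * ((derivative (pPoly f)).eval (σ * t) * σ)) d hd1 ?_ ?_ ?_ ?_ s hs0 hs1
  · simpa using h
  · intro t
    have h1 : HasDerivAt (fun y : ℝ => σ * y) σ t := hasDerivAt_const_mul σ
    have h2 := ((pPoly f).hasDerivAt (σ * t)).comp t h1
    exact h2.const_mul ε
  · intro t ht
    show |ε * (pPoly f).eval (σ * t)| ≤ 1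
    rw [abs_mul, hεabs, one_mul]
    exact pPoly_abs_le_one f hf (σ * t) (hx t ht)
  · intro t ht
    have hk := key_B f hf d hdeg (σ * t) (hx t ht)
    have hsq : (σ * t) ^ 2 = t ^ 2 := by
      rcases hσ with h | h <;> rw [h] <;> ring
    rw [hsq] at hk
    show (1 - t ^ 2) * |ε * ((derivative (pPoly f)).eval (σ * t) * σ)|
        ≤ d * (1 - (ε * (pPoly f).eval (σ * t)) ^ 2)
    rw [abs_mul, abs_mul, hεabs, hσabs, one_mul, mul_one, mul_pow, hεsq, one_mul]
    exact hk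
  · simpa using h0

/-- The odd part of `p = pPoly f` at `±s` is at most `1 - 2/(R+1) = (R-1)/(R+1)` in absolute
value, `R = ((1+s)/(1-s))^d`, provided `|p 0| < 1`. -/
theorem odd_bound_strong (f : (Fin n → ℤˣ) → ℝ) (hf : ∀ x, f x = 1 ∨ f x = -1) (d : ℕ)
    (hd1 : 1 ≤ d) (hdeg : ∀ S : Finset (Fin n), d < S.card → fourier f S = 0)
    (ha1 : -1 < (pPoly f).eval 0) (ha2 : (pPoly f).eval 0 < 1)
    (s : ℝ) (hs0 : 0 ≤ s) (hs1 : s < 1) :
    |(oddPart (pPoly f) d).eval s| ≤ 1 - 2 / (((1 + s) / (1 - s)) ^ d + 1)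
    ∧ |(oddPart (pPoly f) d).eval (-s)| ≤ 1 - 2 / (((1 + s) / (1 - s)) ^ d + 1) := by
  have hP := pPoly_natDegree_le f d hdeg
  have hR1 : 1 ≤ ((1 + s) / (1 - s)) ^ d := by
    refine one_le_pow₀ ?_
    rw [le_div_iff₀ (by linarith)]
    linarith
  have h1 := ode_apply_strong f hf d hd1 hdeg 1 1 (Or.inl rfl) (Or.inl rfl)
    (by linarith) s hs0 hs1
  have h2 := ode_apply_strong f hf d hd1 hdeg (-1) (-1) (Or.inr rfl) (Or.inr rfl)
    (by linarith) s hs0 hs1
  have h3 := ode_apply_strong f hf d hd1 hdeg 1 (-1) (Or.inl rfl) (Or.inr rfl)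
    (by linarith) s hs0 hs1
  have h4 := ode_apply_strong f hf d hd1 hdeg (-1) 1 (Or.inr rfl) (Or.inl rfl)
    (by linarith) s hs0 hs1
  simp only [one_mul, neg_mul, sub_neg_eq_add] at h1 h2 h3 h4
  have hs1' : |s| ≤ 1 := by rw [abs_of_nonneg hs0]; exact hs1.le
  have hs2' : |-s| ≤ 1 := by rwa [abs_neg]
  have hu := abs_le.mp (pPoly_abs_le_one f hf s hs1')
  have hv := abs_le.mp (pPoly_abs_le_one f hf (-s) hs2')
  have e1 : (oddPart (pPoly f) d).eval s = ((pPoly f).eval s - (pPoly f).eval (-s)) / 2 :=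
    oddPart_eval _ d hP s
  have e2 : (oddPart (pPoly f) d).eval (-s) = ((pPoly f).eval (-s) - (pPoly f).eval s) / 2 := by
    rw [oddPart_eval _ d hP (-s), neg_neg]
  rw [e1, e2]
  generalize ((1 + s) / (1 - s)) ^ d = R at *
  generalize (pPoly f).eval 0 = a at *
  generalize (pPoly f).eval s = u at *
  generalize (pPoly f).eval (-s) = v at *
  have hD1 : 0 < (1 + a) * R + (1 - a) := by nlinarith
  have hD2 : 0 < (1 - a) * R + (1 + a) := by nlinarith
  have hR0 : 0 < R + 1 := by linarith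
  -- the algebraic core
  have hkey : 4 / (R + 1) ≤ 2 * (1 - a) / ((1 + a) * R + (1 - a))
      + 2 * (1 + a) / ((1 - a) * R + (1 + a)) := by
    rw [div_add_div _ _ hD1.ne' hD2.ne', div_le_div_iff₀ hR0 (mul_pos hD1 hD2)]
    have hid : (2 * (1 - a) * ((1 - a) * R + (1 + a)) + ((1 + a) * R + (1 - a)) * (2 * (1 + a)))
          * (R + 1) - 4 * (((1 + a) * R + (1 - a)) * ((1 - a) * R + (1 + a)))
        = 8 * R * (R - 1) * a ^ 2 := by ring
    have hnn : 0 ≤ 8 * R * (R - 1) * a ^ 2 := by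
      have : 0 ≤ R - 1 := by linarith
      positivity
    linarith
  -- upper bounds from the comparison
  have hA1 : 2 * (1 - a) / ((1 + a) * R + (1 - a)) ≤ 1 - u := by
    rw [div_le_iff₀ hD1]
    nlinarith
  have hB1 : 2 * (1 + a) / ((1 - a) * R + (1 + a)) ≤ 1 + v := by
    rw [div_le_iff₀ hD2]
    nlinarith
  have hA2 : 2 * (1 - a) / ((1 + a) * R + (1 - a)) ≤ 1 - v := by
    rw [div_le_iff₀ hD1]
    nlinarith
  have hB2 : 2 * (1 + a) / ((1 - a) * R + (1 + a)) ≤ 1 + u := by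
    rw [div_le_iff₀ hD2]
    nlinarith
  have e3 : 2 / (R + 1) = 4 / (R + 1) / 2 := by ring
  rw [e3]
  constructor
  · rw [abs_le]
    constructor <;> linarith
  · rw [abs_le]
    constructor <;> linarith

/-- `(1+s)/(1-s) ≤ exp (2 s / (1 - s^2))` for `0 ≤ s < 1`. -/
theorem ratio_le_exp_sq (s : ℝ) (hs0 : 0 ≤ s) (hs1 : s < 1) :
    (1 + s) / (1 - s) ≤ Real.exp (2 * s / (1 - s ^ 2)) := by
  have h1s : 0 < 1 - s := by linarith
  have hD : 0 < 1 - s ^ 2 := by nlinarith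
  have hD1 : 1 - s ^ 2 ≤ 1 := by nlinarith
  have hu : 0 ≤ 2 * s / (1 - s ^ 2) := by positivity
  have h := Real.quadratic_le_exp_of_nonneg hu
  refine le_trans ?_ h
  have e1 : (1 + s) / (1 - s) = 1 + 2 * s / (1 - s ^ 2) + 2 * s ^ 2 / (1 - s ^ 2) := by
    field_simp
    ring
  have e2 : (2 * s / (1 - s ^ 2)) ^ 2 / 2 = 2 * s ^ 2 / (1 - s ^ 2) ^ 2 := by
    field_simp
  rw [e1, e2]
  have h3 : 2 * s ^ 2 / (1 - s ^ 2) ≤ 2 * s ^ 2 / (1 - s ^ 2) ^ 2 := by
    refine div_le_div_of_nonneg_left (by positivity) (by positivity) ?_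
    nlinarith
  linarith

theorem exp_13_4_le : Real.exp (13 / 4) ≤ 25.8 := by
  have h13 : Real.exp 13 = Real.exp 1 ^ 13 := by
    rw [← Real.exp_nat_mul]
    norm_num
  have h4 : Real.exp (13 / 4) ^ 4 = Real.exp 13 := by
    rw [← Real.exp_nat_mul]
    norm_num
  have h1 := Real.exp_one_lt_d9
  have hle : Real.exp 13 ≤ (25.8 : ℝ) ^ 4 := by
    rw [h13]
    calc Real.exp 1 ^ 13 ≤ (2.7182818286 : ℝ) ^ 13 :=
          pow_le_pow_left₀ (Real.exp_pos 1).le h1.le 13
      _ ≤ (25.8 : ℝ) ^ 4 := by norm_num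
  by_contra hcon
  rw [not_le] at hcon
  have h5 : (25.8 : ℝ) ^ 4 < Real.exp (13 / 4) ^ 4 :=
    pow_lt_pow_left₀ hcon (by norm_num) (by norm_num)
  rw [h4] at h5
  linarith

/-- Monotonicity of the numerical quantity in the node. -/
theorem numeric_of_upper (m s u : ℝ) (j : ℕ) (hm : 0 ≤ m) (hs0 : 0 ≤ s) (hsu : s ≤ u)
    (hu : u < 1) :
    (((1 + s) / (1 - s)) ^ j + 1) * (m * s) ^ 2 ≤ (((1 + u) / (1 - u)) ^ j + 1) * (m * u) ^ 2 := by
  have h1 : (1 + s) / (1 - s) ≤ (1 + u) / (1 - u) := by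
    rw [div_le_div_iff₀ (by linarith) (by linarith)]
    nlinarith
  have h0 : 0 ≤ (1 + s) / (1 - s) := div_nonneg (by linarith) (by linarith)
  have h2 : ((1 + s) / (1 - s)) ^ j ≤ ((1 + u) / (1 - u)) ^ j := pow_le_pow_left₀ h0 h1 j
  have h3 : (m * s) ^ 2 ≤ (m * u) ^ 2 :=
    pow_le_pow_left₀ (mul_nonneg hm hs0) (mul_le_mul_of_nonneg_left hsu hm) 2
  have h4 : 0 ≤ ((1 + u) / (1 - u)) ^ j + 1 := by
    have := pow_nonneg (h0.trans h1) j
    linarith
  exact mul_le_mul (by linarith) h3 (sq_nonneg _) h4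

/-- The numerical input: at the central node `s` of order `m = 2k+1 ≥ 3`,
`(((1+s)/(1-s))^m + 1) (m s)^2 ≤ 200/3`. -/
theorem numeric_main (k : ℕ) (hk : 1 ≤ k) :
    0 < node (2 * k + 1) k ∧ node (2 * k + 1) k < 1 ∧
    ((2 * k + 1 : ℕ) : ℝ) * node (2 * k + 1) k ≤ 8 / 5 ∧
    (((1 + node (2 * k + 1) k) / (1 - node (2 * k + 1) k)) ^ (2 * k + 1) + 1)
      * (((2 * k + 1 : ℕ) : ℝ) * node (2 * k + 1) k) ^ 2 ≤ 200 / 3 := by
  have hpi2 := Real.pi_lt_d4
  have hpi1 := Real.pi_gt_d4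
  -- general facts: `s = sin x`, `x = π / (2 m)`
  have hgen : 0 < node (2 * k + 1) k ∧ node (2 * k + 1) k ≤ π / (2 * ((2 * k + 1 : ℕ) : ℝ)) := by
    rw [node_central_eq_sin]
    have hm3 : (3 : ℝ) ≤ ((2 * k + 1 : ℕ) : ℝ) := by
      have : (1 : ℝ) ≤ k := by exact_mod_cast hk
      push_cast
      linarith
    have hx0 : 0 < π / (2 * ((2 * k + 1 : ℕ) : ℝ)) := by positivity
    have hx1 : π / (2 * ((2 * k + 1 : ℕ) : ℝ)) < π := by
      rw [div_lt_iff₀ (by positivity)]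
      nlinarith [Real.pi_pos]
    exact ⟨Real.sin_pos_of_pos_of_lt_pi hx0 hx1, Real.sin_le hx0.le⟩
  obtain ⟨hs0, hsx⟩ := hgen
  have hm3 : (3 : ℝ) ≤ ((2 * k + 1 : ℕ) : ℝ) := by
    have : (1 : ℝ) ≤ k := by exact_mod_cast hk
    push_cast
    linarith
  have hmx : ((2 * k + 1 : ℕ) : ℝ) * (π / (2 * ((2 * k + 1 : ℕ) : ℝ))) = π / 2 := by
    field_simp
  have hms : ((2 * k + 1 : ℕ) : ℝ) * node (2 * k + 1) k ≤ π / 2 := by
    rw [← hmx]
    exact mul_le_mul_of_nonneg_left hsx (by positivity)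
  have hs1 : node (2 * k + 1) k < 1 := by
    have : 3 * node (2 * k + 1) k ≤ ((2 * k + 1 : ℕ) : ℝ) * node (2 * k + 1) k :=
      mul_le_mul_of_nonneg_right hm3 hs0.le
    linarith
  refine ⟨hs0, hs1, by linarith, ?_⟩
  rcases Nat.lt_or_ge k 4 with hk4 | hk4
  · -- the cases m = 3, 5, 7
    have hk3 : k = 1 ∨ k = 2 ∨ k = 3 := by omega
    rcases hk3 with rfl | rfl | rfl
    · have h : node (2 * 1 + 1) 1 = 1 / 2 := by
        rw [node_central_eq_sin]
        have e : π / (2 * ((2 * 1 + 1 : ℕ) : ℝ)) = π / 6 := by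
          push_cast
          ring
        rw [e, Real.sin_pi_div_six]
      rw [h]
      norm_num
    · have hu : node (2 * 2 + 1) 2 ≤ 0.31416 := by
        refine hsx.trans ?_
        rw [div_le_iff₀ (by positivity)]
        push_cast
        linarith
      refine (numeric_of_upper _ _ 0.31416 _ (by positivity) hs0.le hu (by norm_num)).trans ?_
      norm_num
    · have hu : node (2 * 3 + 1) 3 ≤ 0.2244 := by
        refine hsx.trans ?_
        rw [div_le_iff₀ (by positivity)]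
        push_cast
        linarith
      refine (numeric_of_upper _ _ 0.2244 _ (by positivity) hs0.le hu (by norm_num)).trans ?_
      norm_num
  · -- m ≥ 9
    have hm9 : (9 : ℝ) ≤ ((2 * k + 1 : ℕ) : ℝ) := by
      have : (4 : ℝ) ≤ k := by exact_mod_cast hk4
      push_cast
      linarith
    have hs2 : node (2 * k + 1) k ≤ 0.17454 := by
      have : 9 * node (2 * k + 1) k ≤ ((2 * k + 1 : ℕ) : ℝ) * node (2 * k + 1) k :=
        mul_le_mul_of_nonneg_right hm9 hs0.le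
      linarith
    generalize hm : ((2 * k + 1 : ℕ) : ℝ) = m at *
    generalize node (2 * k + 1) k = s at *
    have hD : (0.9695 : ℝ) ≤ 1 - s ^ 2 := by nlinarith
    have hexp : m * (2 * s / (1 - s ^ 2)) ≤ 13 / 4 := by
      have e : m * (2 * s / (1 - s ^ 2)) = 2 * (m * s) / (1 - s ^ 2) := by ring
      rw [e, div_le_iff₀ (by linarith)]
      nlinarith
    have hρ0 : 0 ≤ (1 + s) / (1 - s) := div_nonneg (by linarith) (by linarith)
    have hR : ((1 + s) / (1 - s)) ^ (2 * k + 1) ≤ 25.8 := by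
      calc ((1 + s) / (1 - s)) ^ (2 * k + 1)
          ≤ Real.exp (2 * s / (1 - s ^ 2)) ^ (2 * k + 1) :=
            pow_le_pow_left₀ hρ0 (ratio_le_exp_sq s hs0.le hs1) _
        _ = Real.exp (((2 * k + 1 : ℕ) : ℝ) * (2 * s / (1 - s ^ 2))) := by
            rw [Real.exp_nat_mul]
        _ = Real.exp (m * (2 * s / (1 - s ^ 2))) := by rw [hm]
        _ ≤ Real.exp (13 / 4) := Real.exp_le_exp.mpr hexp
        _ ≤ 25.8 := exp_13_4_le
    have hR0 : 0 ≤ ((1 + s) / (1 - s)) ^ (2 * k + 1) := pow_nonneg hρ0 _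
    have hms0 : 0 ≤ m * s := by positivity
    have hsq : (m * s) ^ 2 ≤ 2.46741264 := by nlinarith
    calc (((1 + s) / (1 - s)) ^ (2 * k + 1) + 1) * (m * s) ^ 2
        ≤ (25.8 + 1) * 2.46741264 :=
          mul_le_mul (by linarith) hsq (sq_nonneg _) (by norm_num)
      _ ≤ 200 / 3 := by norm_num

/-- The final real-variable step for odd degree `d = m`. -/
theorem final_odd (m s R : ℝ) (hm : 0 < m) (hs0 : 0 < s) (hR : 0 < R)
    (hN : (R + 1) * (m * s) ^ 2 ≤ 200 / 3) :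
    m - 2 * (1 - (1 - 2 / (R + 1))) / (m * s ^ 2) ≤ 47 / 50 * m := by
  have hX : 0 < m * s ^ 2 := by positivity
  have hR1 : 0 < R + 1 := by linarith
  have e : 2 * (1 - (1 - 2 / (R + 1))) / (m * s ^ 2) = 4 / ((R + 1) * (m * s ^ 2)) := by
    field_simp
    ring
  rw [e]
  have hsave : 3 / 50 * m ≤ 4 / ((R + 1) * (m * s ^ 2)) := by
    rw [le_div_iff₀ (mul_pos hR1 hX)]
    nlinarith
  linarith

/-- The final real-variable step for even degree `d = m + 1`. -/
theorem final_even (m s R : ℝ) (hm : 0 < m) (hs0 : 0 < s) (hs1 : s < 1) (hms : m * s ≤ 8 / 5)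
    (hR : 0 < R) (hN : (R + 1) * (m * s) ^ 2 ≤ 200 / 3) :
    m - 2 * (1 - (1 - 2 / (R * ((1 + s) / (1 - s)) + 1))) / (m * s ^ 2)
      ≤ 47 / 50 * (m + 1) := by
  have hX : 0 < m * s ^ 2 := by positivity
  have h1s : 0 < 1 - s := by linarith
  have hρ : 0 < (1 + s) / (1 - s) := div_pos (by linarith) h1s
  have hρdef : (1 - s) * ((1 + s) / (1 - s)) = 1 + s := by
    field_simp
  generalize (1 + s) / (1 - s) = ρ at *
  have hR1 : 0 < R * ρ + 1 := by positivity
  have e : 2 * (1 - (1 - 2 / (R * ρ + 1))) / (m * s ^ 2) = 4 / ((R * ρ + 1) * (m * s ^ 2)) := by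
    field_simp
    ring
  rw [e]
  have h1 : (1 - s) * (R * ρ + 1) ≤ (R + 1) * (1 + s) := by
    have e2 : (1 - s) * (R * ρ + 1) = R * ((1 - s) * ρ) + (1 - s) := by ring
    rw [e2, hρdef]
    nlinarith
  have hsave : 3 / 50 * m * (1 - s) / (1 + s) ≤ 4 / ((R * ρ + 1) * (m * s ^ 2)) := by
    rw [div_le_div_iff₀ (by linarith) (mul_pos hR1 hX)]
    have h2 : 3 / 50 * m * (1 - s) * ((R * ρ + 1) * (m * s ^ 2))
        = (3 / 50 * (m * (m * s ^ 2))) * ((1 - s) * (R * ρ + 1)) := by ring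
    rw [h2]
    have h3 : (3 / 50 * (m * (m * s ^ 2))) * ((1 - s) * (R * ρ + 1))
        ≤ (3 / 50 * (m * (m * s ^ 2))) * ((R + 1) * (1 + s)) :=
      mul_le_mul_of_nonneg_left h1 (by positivity)
    have h4 : (3 / 50 * (m * (m * s ^ 2))) * ((R + 1) * (1 + s))
        = (1 + s) * (3 / 50 * ((R + 1) * (m * s) ^ 2)) := by ring
    have h5 : (1 + s) * (3 / 50 * ((R + 1) * (m * s) ^ 2)) ≤ (1 + s) * 4 :=
      mul_le_mul_of_nonneg_left (by linarith) (by linarith)
    linarith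
  have hB : m - 3 / 50 * m * (1 - s) / (1 + s) ≤ 47 / 50 * (m + 1) := by
    have e3 : m - 3 / 50 * m * (1 - s) / (1 + s)
        = (m * (1 + s) - 3 / 50 * m * (1 - s)) / (1 + s) := by
      field_simp
    rw [e3, div_le_iff₀ (by linarith)]
    nlinarith
  linarith

/-- The signed level-one sum of a Boolean function of degree at most `d ≥ 2` is at most
`(47/50) d`. -/
theorem level_one_signed_strong (f : (Fin n → ℤˣ) → ℝ) (hf : ∀ x, f x = 1 ∨ f x = -1) (d : ℕ)
    (hd : 2 ≤ d) (hdeg : ∀ S : Finset (Fin n), d < S.card → fourier f S = 0) :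
    ∑ i : Fin n, fourier f {i} ≤ 47 / 50 * (d : ℝ) := by
  have hP := pPoly_natDegree_le f d hdeg
  have hd2 : (2 : ℝ) ≤ d := by exact_mod_cast hd
  have ha := abs_le.mp (pPoly_abs_le_one f hf 0 (by simp))
  have hB := key_B f hf d hdeg 0 (by simp)
  rw [pPoly_derivative_eval_zero] at hB
  by_cases hcase : (pPoly f).eval 0 = 1 ∨ (pPoly f).eval 0 = -1
  · have hzero : (d : ℝ) * (1 - (pPoly f).eval 0 ^ 2) = 0 := by
      rcases hcase with h | h <;> rw [h] <;> ring
    rw [hzero] at hB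
    have h1 : ∑ i : Fin n, fourier f {i} ≤ |∑ i : Fin n, fourier f {i}| := le_abs_self _
    have h2 : |∑ i : Fin n, fourier f {i}| ≤ 0 := by linarith
    linarith
  · rw [not_or] at hcase
    have ha1 : -1 < (pPoly f).eval 0 := lt_of_le_of_ne ha.1 (Ne.symm hcase.2)
    have ha2 : (pPoly f).eval 0 < 1 := lt_of_le_of_ne ha.2 hcase.1
    obtain ⟨k, hk⟩ : ∃ k, d = 2 * k + 1 ∨ d = 2 * k + 2 := ⟨(d - 1) / 2, by omega⟩
    have hQdeg : (oddPart (pPoly f) d).natDegree ≤ 2 * k + 1 := by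
      refine oddPart_natDegree _ d _ (fun j hj hodd => ?_)
      obtain ⟨r, hr⟩ := hodd
      omega
    have hQ0 := oddPart_eval_zero (pPoly f) d hP
    have hQbd : ∀ x ∈ Set.Icc (-1 : ℝ) 1, |(oddPart (pPoly f) d).eval x| ≤ 1 := by
      intro x hx
      rw [oddPart_eval _ d hP]
      have hx1 : |x| ≤ 1 := abs_le.mpr ⟨hx.1, hx.2⟩
      have hx2 : |-x| ≤ 1 := by rwa [abs_neg]
      have h1 := abs_le.mp (pPoly_abs_le_one f hf x hx1)
      have h2 := abs_le.mp (pPoly_abs_le_one f hf (-x) hx2)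
      rw [abs_le]
      constructor <;> linarith [h1.1, h1.2, h2.1, h2.2]
    have hQ' : (derivative (oddPart (pPoly f) d)).eval 0 = ∑ i : Fin n, fourier f {i} := by
      rw [oddPart_derivative_zero _ d hP, pPoly_derivative_eval_zero]
    rw [← hQ']
    refine (le_abs_self _).trans ?_
    rcases Nat.eq_zero_or_pos k with hk0 | hk1
    · subst hk0
      have h := cheb_bound_basic 1 ⟨0, rfl⟩ _ hQdeg hQ0 hQbd
      refine h.trans ?_
      push_cast
      linarith
    · obtain ⟨hs0, hs1, hms, hnum⟩ := numeric_main k hk1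
      obtain ⟨hβ1, hβ2⟩ :=
        odd_bound_strong f hf d (by omega) hdeg ha1 ha2 (node (2 * k + 1) k) hs0.le hs1
      have h := cheb_bound_central k hk1 _ hQdeg hQ0 hQbd _ hβ1 hβ2
      refine h.trans ?_
      have hm0 : (0 : ℝ) < ((2 * k + 1 : ℕ) : ℝ) := by positivity
      have hRpos : 0 < ((1 + node (2 * k + 1) k) / (1 - node (2 * k + 1) k)) ^ (2 * k + 1) :=
        pow_pos (div_pos (by linarith) (by linarith)) _
      rcases hk with hk | hk
      · rw [hk]
        exact final_odd _ _ _ hm0 hs0 hRpos hnum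
      · have hd' : (d : ℝ) = ((2 * k + 1 : ℕ) : ℝ) + 1 := by
          rw [hk]
          push_cast
          ring
        have hpow : ((1 + node (2 * k + 1) k) / (1 - node (2 * k + 1) k)) ^ d
            = ((1 + node (2 * k + 1) k) / (1 - node (2 * k + 1) k)) ^ (2 * k + 1)
              * ((1 + node (2 * k + 1) k) / (1 - node (2 * k + 1) k)) := by
          rw [hk, pow_succ]
        rw [hpow, hd']
        exact final_even _ _ _ hm0 hs0 hs1 hms hRpos hnum

/-- The level-one sum of absolute values of a Boolean function of degree at most `d ≥ 2` is at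
most `(47/50) d`. -/
theorem level_one_abs_strong (f : (Fin n → ℤˣ) → ℝ) (hf : ∀ x, f x = 1 ∨ f x = -1) (d : ℕ)
    (hd : 2 ≤ d) (hdeg : ∀ S : Finset (Fin n), d < S.card → fourier f S = 0) :
    ∑ i : Fin n, |fourier f {i}| ≤ 47 / 50 * (d : ℝ) := by
  classical
  have key : ∀ i : Fin n,
      fourier (fun x => f ((fun j => if 0 ≤ fourier f {j} then (1 : ℤˣ) else -1) * x)) {i}
        = |fourier f {i}| := by
    intro i
    rw [fourier_flip, Finset.prod_singleton]
    by_cases h : 0 ≤ fourier f {i}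
    · rw [if_pos h, abs_of_nonneg h]
      simp
    · rw [if_neg h, abs_of_neg (not_le.mp h)]
      simp
  have h := level_one_signed_strong
    (fun x => f ((fun j => if 0 ≤ fourier f {j} then (1 : ℤˣ) else -1) * x))
    (fun x => hf _) d hd (fun S hS => by rw [fourier_flip, hdeg S hS, mul_zero])
  rw [Finset.sum_congr rfl (fun i _ => key i)] at h
  exact h

end Vale.Agent.Helper17.GS
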