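import Vale.Agent.Helper17.P302Sound
import Vale.Agent.Helper6.P302Bridge
import Vale.Agent.Helper7.P302.Cert15
import Vale.Agent.Helper7.P302.Cert15b
import Vale.Agent.Helper7.P302.Defs2

/-!
# P302: the index-form pair-slot bounds from the `chk` certificates

`hD15`: first instance (`posL`, 31 positives, certificate `cert15`).
`hD15b`: second instance (`posL2`, 32 positives, certificate `cert15b`).
-/

namespace Vale.Agent.Helper7.P302

open Vale.Agent.Helper6.P302Bridge

/-- No 14 index-disjoint pairs of positives of `posL` fit into 14 distinct slots of `slotsL`. -/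
theorem hD15 (s : Fin 14 → Fin 15) (p q : Fin 14 → Fin 31) (hs : Function.Injective s)
    (hpq : Function.Injective (Sum.elim p q))
    (hfit : ∀ k, posL.getD (p k) 0 + posL.getD (q k) 0 ≤ slotsL.getD (s k) 0) : False :=
  index_of_valid slotsL posL 13 15 31 (by decide) (by decide)
    (chk_sound_nil slotsL 13 cert15 posL cert15_ok) s p q hs hpq hfit

/-- No 14 index-disjoint pairs of positives of `posL2` fit into 14 distinct slots of `slotsL`. -/
theorem hD15b (s : Fin 14 → Fin 15) (p q : Fin 14 → Fin 32) (hs : Function.Injective s)
    (hpq : Function.Injective (Sum.elim p q))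
    (hfit : ∀ k, posL2.getD (p k) 0 + posL2.getD (q k) 0 ≤ slotsL.getD (s k) 0) : False :=
  index_of_valid slotsL posL2 13 15 32 (by decide) (by decide)
    (chk_sound_nil slotsL 13 cert15b posL2 cert15b_ok) s p q hs hpq hfit

end Vale.Agent.Helper7.P302
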