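import Vale.Agent.Helper7.P302.Defs

/-!
# P302: the trivial lower bound `total size ≤ LP` for the configuration LP

Generic in the instance.  It shows that `LP a` (defined as an infimum) is a genuine value:
the defining set is nonempty (one configuration per item) and bounded below by the total size.
-/

namespace Vale.Agent.Helper17.P302LPLower

open Vale.Agent.Helper7.P302 Finset

theorem sum_mult_eq {n : ℕ} (a : Fin n → ℚ) :
    ∑ σ ∈ sizeSet a, (σ : ℝ) * (mult a σ : ℝ) = ∑ i, (a i : ℝ) := by
  unfold sizeSet mult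
  have h : ∀ σ ∈ univ.image a, (σ : ℝ) * ((univ.filter (fun i => a i = σ)).card : ℝ) =
      ∑ i ∈ univ.filter (fun i => a i = σ), (a i : ℝ) := by
    intro σ _
    rw [Finset.sum_congr rfl (fun i hi => by rw [(Finset.mem_filter.mp hi).2])]
    simp [mul_comm]
  rw [Finset.sum_congr rfl h]
  exact Finset.sum_fiberwise_of_maps_to
    (fun i _ => Finset.mem_image_of_mem a (Finset.mem_univ i)) _

/-- Every feasible fractional solution has total weight at least the total size. -/
theorem total_le_of_fracSol {n : ℕ} (a : Fin n → ℚ) (h0 : ∀ i, 0 ≤ a i) (k : ℕ)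
    (c : Fin k → ℚ → ℕ) (z : Fin k → ℝ) (h : IsFracSol a k c z) :
    ∑ i, (a i : ℝ) ≤ ∑ j, z j := by
  obtain ⟨h1, h2⟩ := h
  rw [← sum_mult_eq]
  calc ∑ σ ∈ sizeSet a, (σ : ℝ) * (mult a σ : ℝ)
      ≤ ∑ σ ∈ sizeSet a, (σ : ℝ) * ∑ j, (c j σ : ℝ) * z j := by
        apply Finset.sum_le_sum
        intro σ hσ
        apply mul_le_mul_of_nonneg_left (h2 σ hσ)
        obtain ⟨i, _, rfl⟩ := Finset.mem_image.mp hσ
        exact_mod_cast h0 i
    _ = ∑ j, z j * ∑ σ ∈ sizeSet a, (σ : ℝ) * (c j σ : ℝ) := by
        simp only [Finset.mul_sum]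
        rw [Finset.sum_comm]
        apply Finset.sum_congr rfl; intro j _
        apply Finset.sum_congr rfl; intro σ _
        ring
    _ ≤ ∑ j, z j * 1 := by
        apply Finset.sum_le_sum
        intro j _
        apply mul_le_mul_of_nonneg_left _ (h1 j).2
        have h3 := (h1 j).1.2
        exact_mod_cast h3
    _ = ∑ j, z j := by simp

/-- One configuration per item is a feasible fractional solution of total weight `n`. -/
theorem trivial_fracSol {n : ℕ} (a : Fin n → ℚ) (h1 : ∀ i, a i ≤ 1) :
    IsFracSol a n (fun j σ => if σ = a j then 1 else 0) (fun _ => 1) := by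
  refine ⟨fun j => ⟨⟨?_, ?_⟩, zero_le_one⟩, ?_⟩
  · intro σ hσ
    have : σ ≠ a j := by
      rintro rfl
      exact hσ (Finset.mem_image_of_mem a (Finset.mem_univ j))
    simp [this]
  · have hj : a j ∈ sizeSet a := Finset.mem_image_of_mem a (Finset.mem_univ j)
    rw [Finset.sum_eq_single (a j)]
    · simpa using h1 j
    · intro σ _ hσ
      simp [hσ]
    · intro hn
      exact absurd hj hn
  · intro σ _
    unfold mult
    simp only [mul_one]
    rw [← Nat.cast_sum, Finset.card_filter]
    apply le_of_eq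
    congr 1
    apply Finset.sum_congr rfl
    intro i _
    by_cases hi : a i = σ
    · simp [hi]
    · have : σ ≠ a i := fun h => hi h.symm
      simp [hi, this]

/-- The defining set of `LP a` is nonempty and bounded below, and the total size is a lower
bound for `LP a`. -/
theorem total_le_LP {n : ℕ} (a : Fin n → ℚ) (h0 : ∀ i, 0 ≤ a i) (h1 : ∀ i, a i ≤ 1) :
    ∑ i, (a i : ℝ) ≤ LP a := by
  unfold LP
  apply le_csInf
  · exact ⟨_, n, _, _, trivial_fracSol a h1, rfl⟩
  · rintro v ⟨k, c, z, hsol, rfl⟩
    exact total_le_of_fracSol a h0 k c z hsol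

/-- `LP a` is attained up to any feasible solution: it is at most the value of every feasible
fractional solution (the defining set is bounded below by `0`). -/
theorem LP_le_of_fracSol {n : ℕ} (a : Fin n → ℚ) (k : ℕ) (c : Fin k → ℚ → ℕ) (z : Fin k → ℝ)
    (h : IsFracSol a k c z) : LP a ≤ ∑ j, z j := by
  unfold LP
  apply csInf_le
  · refine ⟨0, ?_⟩
    rintro v ⟨k', c', z', hsol, rfl⟩
    exact Finset.sum_nonneg (fun j _ => (hsol.1 j).2)
  · exact ⟨k, c, z, h, rfl⟩

end Vale.Agent.Helper17.P302LPLower
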