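import Vale.Agent.Helper17.P302LPLower
import Vale.Agent.Helper7.P302.Assemble
import Vale.Agent.Helper7.P302.Assemble3

/-!
# P302: total size as a lower bound for `LP` of the concrete instances
-/

namespace Vale.Agent.Helper17.P302LPLower

open Vale.Agent.Helper7.P302 Finset

theorem sum_itemsL : ∑ i : Fin 50, itemsL.getD i.1 0 = 4995554 := by decide

theorem sum_itemsL3 : ∑ i : Fin 51, itemsL3.getD i.1 0 = 32557371 := by decide

/-- The total size of the first instance. -/
theorem total_inst : ∑ i : Fin 50, (inst i : ℝ) = 2497777 / 150000 := by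
  have h : ∑ i : Fin 50, (inst i : ℝ) = ((∑ i : Fin 50, itemsL.getD i.1 0 : ℕ) : ℝ) / 300000 := by
    unfold inst
    push_cast
    rw [Finset.sum_div]
  rw [h, sum_itemsL]
  norm_num

/-- The total size of the third instance. -/
theorem total_inst3 : ∑ i : Fin 51, (inst3 i : ℝ) = 10852457 / 650000 := by
  have h : ∑ i : Fin 51, (inst3 i : ℝ) =
      ((∑ i : Fin 51, itemsL3.getD i.1 0 : ℕ) : ℝ) / 1950000 := by
    unfold inst3
    push_cast
    rw [Finset.sum_div]
  rw [h, sum_itemsL3]
  norm_num

/-- `LP inst` is at least the total size `2497777/150000 > 16.65`. -/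
theorem lp_ge_inst : (2497777 / 150000 : ℝ) ≤ LP inst := by
  rw [← total_inst]
  exact total_le_LP inst (fun i => (inst_pos_le i).1.le) (fun i => (inst_pos_le i).2)

/-- `LP inst3` is at least the total size `10852457/650000 > 16.69`. -/
theorem lp_ge_inst3 : (10852457 / 650000 : ℝ) ≤ LP inst3 := by
  rw [← total_inst3]
  exact total_le_LP inst3 (fun i => (inst3_pos_le i).1.le) (fun i => (inst3_pos_le i).2)

theorem lp_gt_16_inst : (16 : ℝ) < LP inst := by
  have := lp_ge_inst
  norm_num at this ⊢
  linarith

theorem lp_gt_16_inst3 : (16 : ℝ) < LP inst3 := by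
  have := lp_ge_inst3
  norm_num at this ⊢
  linarith

end Vale.Agent.Helper17.P302LPLower
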