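import Mathlib
import Vale.Agent.Helper7.P302.Check

/-!
# P302: soundness of the branch-and-bound certificate checker `chk`

Leaf lemma, the certificate induction (taking the node step as a hypothesis), the node step,
and the resulting `chk_sound`.
-/

namespace Vale.Agent.Helper7.P302

theorem foldl_min_le_init (l : List ℕ) (w : ℕ) : l.foldl min w ≤ w := by
  induction l generalizing w with
  | nil => simp
  | cons a l ih =>
    simp only [List.foldl_cons]
    exact (ih _).trans (min_le_left _ _)

theorem foldl_min_le_mem (l : List ℕ) (w x : ℕ) (hx : x ∈ l) : l.foldl min w ≤ x := by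
  induction l generalizing w with
  | nil => simp at hx
  | cons a l ih =>
    simp only [List.foldl_cons]
    rcases List.mem_cons.mp hx with rfl | h
    · exact (foldl_min_le_init _ _).trans (min_le_right _ _)
    · exact ih _ h

theorem minFit_le (SV : List (ℕ × ℕ)) (s : ℕ) (cv : ℕ × ℕ) (hcv : cv ∈ SV) (h : s ≤ cv.1) :
    minFit SV s ≤ cv.2 := by
  unfold minFit
  have hmem : cv.2 ∈ (SV.filter fun cv => decide (s ≤ cv.1)).map Prod.snd := by
    apply List.mem_map_of_mem
    simp [List.mem_filter, hcv, h]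
  generalize (SV.filter fun cv => decide (s ≤ cv.1)).map Prod.snd = L at hmem
  match L, hmem with
  | [], hmem => simp at hmem
  | w :: l, hmem =>
    rcases List.mem_cons.mp hmem with rfl | h'
    · exact foldl_min_le_init _ _
    · exact foldl_min_le_mem _ _ _ h'

theorem sum_minFit_le (SV : List (ℕ × ℕ)) :
    ∀ (A SV' : Multiset (ℕ × ℕ)), SV' ≤ (SV : Multiset (ℕ × ℕ)) →
      A.map Prod.snd ≤ SV'.map Prod.fst → (∀ x ∈ A, x.1 ≤ x.2) →
      (A.map fun x => minFit SV x.1).sum ≤ (SV'.map Prod.snd).sum := by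
  intro A
  induction A using Multiset.induction_on with
  | empty => intro SV' _ _ _; simp
  | cons x A ih =>
    intro SV' hSV' hA hx
    have hx2 : x.2 ∈ SV'.map Prod.fst := Multiset.mem_of_le hA (by simp)
    obtain ⟨cv, hcv, hcv2⟩ := Multiset.mem_map.mp hx2
    have h1 : minFit SV x.1 ≤ cv.2 := by
      apply minFit_le SV x.1 cv
      · exact Multiset.mem_coe.mp (Multiset.mem_of_le hSV' hcv)
      · rw [hcv2]; exact hx x (Multiset.mem_cons_self _ _)
    have hA' : A.map Prod.snd ≤ (SV'.erase cv).map Prod.fst := by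
      have h3 : x.2 ::ₘ A.map Prod.snd ≤ x.2 ::ₘ (SV'.erase cv).map Prod.fst := by
        have h4 : (cv ::ₘ SV'.erase cv).map Prod.fst = x.2 ::ₘ (SV'.erase cv).map Prod.fst := by
          rw [Multiset.map_cons, hcv2]
        rw [← h4, Multiset.cons_erase hcv, ← Multiset.map_cons]
        exact hA
      exact (Multiset.cons_le_cons_iff _).mp h3
    have h2 := ih (SV'.erase cv) ((Multiset.erase_le _ _).trans hSV') hA'
      (fun y hy => hx y (Multiset.mem_cons_of_mem hy))
    have h5 : (SV'.map Prod.snd).sum = cv.2 + ((SV'.erase cv).map Prod.snd).sum := by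
      conv_lhs => rw [← Multiset.cons_erase hcv]
      rw [Multiset.map_cons, Multiset.sum_cons]
    rw [h5, Multiset.map_cons, Multiset.sum_cons]
    omega

theorem allPairs_iff (slots : List ℕ) (SV : List (ℕ × ℕ)) (D : ℕ) (L : List (ℕ × ℕ)) :
    allPairs slots SV D L = true ↔ L.Pairwise (fun x y => pairOK slots SV D x y = true) := by
  induction L with
  | nil => simp [allPairs]
  | cons x xs ih => simp [allPairs, List.pairwise_cons, ih]

theorem pairOK_symm (slots : List ℕ) (SV : List (ℕ × ℕ)) (D : ℕ) (x y : ℕ × ℕ)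
    (h : pairOK slots SV D x y = true) : pairOK slots SV D y x = true := by
  unfold pairOK at h ⊢
  rw [Nat.add_comm y.1 x.1, Nat.add_comm y.2 x.2]
  exact h

theorem pairOK_of_le (slots : List ℕ) (SV : List (ℕ × ℕ)) (D : ℕ) (RU : List (ℕ × ℕ))
    (hP : RU.Pairwise (fun x y => pairOK slots SV D x y = true)) (e1 e2 : ℕ × ℕ)
    (h : e1 ::ₘ e2 ::ₘ (0 : Multiset (ℕ × ℕ)) ≤ (RU : Multiset (ℕ × ℕ))) :
    pairOK slots SV D e1 e2 = true := by
  have h' : (([e1, e2] : List (ℕ × ℕ)) : Multiset (ℕ × ℕ)) ≤ (RU : Multiset (ℕ × ℕ)) := h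
  rw [Multiset.coe_le] at h'
  obtain ⟨l, hl, hsub⟩ := h'
  have h1 := hP.sublist hsub
  have h2 : ([e1, e2] : List (ℕ × ℕ)).Pairwise (fun x y => pairOK slots SV D x y = true) :=
    (List.Perm.pairwise_iff (fun {x y} hxy => pairOK_symm slots SV D x y hxy) hl).mp h1
  exact (List.pairwise_pair (R := fun x y => pairOK slots SV D x y = true)).mp h2

theorem pair_bound (slots : List ℕ) (SV : List (ℕ × ℕ)) (D : ℕ) (RU : List (ℕ × ℕ))
    (hP : RU.Pairwise (fun x y => pairOK slots SV D x y = true)) :
    ∀ (M : List (ℕ × ℕ)) (L : Multiset (ℕ × ℕ)), L ≤ (RU : Multiset (ℕ × ℕ)) →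
      ((M.flatMap fun x => [x.1, x.2] : List ℕ) : Multiset ℕ) ≤ L.map Prod.fst →
      (∀ p ∈ M, fits slots (p.1 + p.2) = true) →
      D * M.length ≤ (L.map Prod.snd).sum + (M.map fun p => minFit SV (p.1 + p.2)).sum := by
  intro M
  induction M with
  | nil => intro L _ _ _; simp
  | cons p M ih =>
    intro L hL hM hfit
    have hM' : p.1 ::ₘ p.2 ::ₘ ((M.flatMap fun x => [x.1, x.2] : List ℕ) : Multiset ℕ) ≤
        L.map Prod.fst := by
      have : ((((p :: M).flatMap fun x => [x.1, x.2]) : List ℕ) : Multiset ℕ) =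
          p.1 ::ₘ p.2 ::ₘ ((M.flatMap fun x => [x.1, x.2] : List ℕ) : Multiset ℕ) := by
        simp [List.flatMap_cons]
      rw [← this]; exact hM
    have hp1 : p.1 ∈ L.map Prod.fst := Multiset.mem_of_le hM' (Multiset.mem_cons_self _ _)
    obtain ⟨e1, he1, he1p⟩ := Multiset.mem_map.mp hp1
    have hM1 : p.2 ::ₘ ((M.flatMap fun x => [x.1, x.2] : List ℕ) : Multiset ℕ) ≤
        (L.erase e1).map Prod.fst := by
      have h4 : (e1 ::ₘ L.erase e1).map Prod.fst = p.1 ::ₘ (L.erase e1).map Prod.fst := by
        rw [Multiset.map_cons, he1p]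
      have h3 : p.1 ::ₘ p.2 ::ₘ ((M.flatMap fun x => [x.1, x.2] : List ℕ) : Multiset ℕ) ≤
          p.1 ::ₘ (L.erase e1).map Prod.fst := by
        rw [← h4, Multiset.cons_erase he1]; exact hM'
      exact (Multiset.cons_le_cons_iff _).mp h3
    have hp2 : p.2 ∈ (L.erase e1).map Prod.fst :=
      Multiset.mem_of_le hM1 (Multiset.mem_cons_self _ _)
    obtain ⟨e2, he2, he2p⟩ := Multiset.mem_map.mp hp2
    have hM2 : ((M.flatMap fun x => [x.1, x.2] : List ℕ) : Multiset ℕ) ≤
        ((L.erase e1).erase e2).map Prod.fst := by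
      have h4 : (e2 ::ₘ (L.erase e1).erase e2).map Prod.fst =
          p.2 ::ₘ ((L.erase e1).erase e2).map Prod.fst := by
        rw [Multiset.map_cons, he2p]
      have h3 : p.2 ::ₘ ((M.flatMap fun x => [x.1, x.2] : List ℕ) : Multiset ℕ) ≤
          p.2 ::ₘ ((L.erase e1).erase e2).map Prod.fst := by
        rw [← h4, Multiset.cons_erase he2]; exact hM1
      exact (Multiset.cons_le_cons_iff _).mp h3
    have hLeq : L = e1 ::ₘ e2 ::ₘ (L.erase e1).erase e2 := by
      rw [Multiset.cons_erase he2, Multiset.cons_erase he1]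
    have hL'' : (L.erase e1).erase e2 ≤ (RU : Multiset (ℕ × ℕ)) :=
      ((Multiset.erase_le _ _).trans (Multiset.erase_le _ _)).trans hL
    have hih := ih ((L.erase e1).erase e2) hL'' hM2
      (fun q hq => hfit q (List.mem_cons_of_mem _ hq))
    have hpair : pairOK slots SV D e1 e2 = true := by
      apply pairOK_of_le slots SV D RU hP
      refine le_trans ?_ hL
      rw [hLeq]
      exact (Multiset.cons_le_cons_iff _).mpr ((Multiset.cons_le_cons_iff _).mpr
        (Multiset.zero_le _))
    have hfp := hfit p (List.mem_cons_self ..)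
    have hD : D ≤ e1.2 + e2.2 + minFit SV (p.1 + p.2) := by
      unfold pairOK at hpair
      rw [he1p, he2p, hfp] at hpair
      simpa using hpair
    have hsum : (L.map Prod.snd).sum = e1.2 + (e2.2 + (((L.erase e1).erase e2).map Prod.snd).sum) := by
      conv_lhs => rw [hLeq]
      rw [Multiset.map_cons, Multiset.sum_cons, Multiset.map_cons, Multiset.sum_cons]
    rw [hsum]
    simp only [List.length_cons, List.map_cons, List.sum_cons, Nat.mul_add, Nat.mul_one]
    omega

theorem fits_of_valid (slots R F : List ℕ) (M : List (ℕ × ℕ)) (hM : Valid slots R F M) :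
    ∀ p ∈ M, fits slots (p.1 + p.2) = true := by
  intro p hp
  obtain ⟨_, A, hA1, hA2, hA3⟩ := hM
  have h1 : p.1 + p.2 ∈ A.map Prod.fst := by
    rw [hA1]
    apply Multiset.mem_add.mpr
    right
    exact Multiset.mem_coe.mpr (List.mem_map.mpr ⟨p, hp, rfl⟩)
  obtain ⟨x, hx, hx1⟩ := Multiset.mem_map.mp h1
  have h2 : x.2 ∈ (slots : Multiset ℕ) := Multiset.mem_of_le hA2 (Multiset.mem_map_of_mem _ hx)
  unfold fits
  rw [List.any_eq_true]
  refine ⟨x.2, Multiset.mem_coe.mp h2, ?_⟩
  have := hA3 x hx
  simp only [decide_eq_true_eq]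
  omega

/-- The leaf lemma: a leaf check certifies the bound. -/
theorem leaf_sound (slots : List ℕ) (T : ℕ) (R F : List ℕ) (D : ℕ) (u v : List ℕ)
    (h : leafOK slots T R F D u v = true) (M : List (ℕ × ℕ)) (hM : Valid slots R F M) :
    F.length + M.length ≤ T := by
  unfold leafOK at h
  simp only [Bool.and_eq_true, decide_eq_true_eq] at h
  obtain ⟨⟨⟨hu, hv⟩, hall⟩, hlt⟩ := h
  have hfit := fits_of_valid slots R F M hM
  have hP := (allPairs_iff slots (slots.zip v) D (R.zip u)).mp hall
  obtain ⟨hMR, A, hA1, hA2, hA3⟩ := hM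
  -- the pair bound
  have hb1 := pair_bound slots (slots.zip v) D (R.zip u) hP M ((R.zip u : List (ℕ × ℕ)))
    le_rfl (by
      rw [Multiset.map_coe, List.map_fst_zip (by omega)]
      exact hMR) hfit
  rw [Multiset.map_coe, Multiset.sum_coe, List.map_snd_zip (by omega)] at hb1
  -- the slot bound
  have hb2 := sum_minFit_le (slots.zip v) A ((slots.zip v : List (ℕ × ℕ))) le_rfl (by
      rw [Multiset.map_coe, List.map_fst_zip (by omega)]
      exact hA2) hA3
  rw [Multiset.map_coe, Multiset.sum_coe, List.map_snd_zip (by omega)] at hb2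
  have hb3 : (A.map fun x => minFit (slots.zip v) x.1).sum =
      (F.map (minFit (slots.zip v))).sum +
        (M.map fun p => minFit (slots.zip v) (p.1 + p.2)).sum := by
    have : (A.map fun x => minFit (slots.zip v) x.1) =
        (A.map Prod.fst).map (minFit (slots.zip v)) := by
      rw [Multiset.map_map]; rfl
    rw [this, hA1, Multiset.map_add, Multiset.sum_add, Multiset.map_coe, Multiset.map_coe,
      Multiset.sum_coe, Multiset.sum_coe, List.map_map]
    rfl
  rw [hb3] at hb2
  have hfin : D * (F.length + M.length) < D * (T + 1) := by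
    rw [Nat.mul_add]
    omega
  have := Nat.lt_of_mul_lt_mul_left hfin
  omega

/-- The certificate induction, with the node step as a hypothesis. -/
theorem chk_sound_aux (slots : List ℕ) (T : ℕ)
    (hnode : ∀ (R F : List ℕ) (idx : ℕ), idx < R.length →
      (∀ M, Valid slots (R.eraseIdx idx) F M → F.length + M.length ≤ T) →
      (∀ (i : ℕ) (b : ℕ), (R.eraseIdx idx)[i]? = some b →
        fits slots (R.getD idx 0 + b) = true →
        ∀ M, Valid slots ((R.eraseIdx idx).eraseIdx i) ((R.getD idx 0 + b) :: F) M →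
          ((R.getD idx 0 + b) :: F).length + M.length ≤ T) →
      ∀ M, Valid slots R F M → F.length + M.length ≤ T) (c : Cert) :
    (∀ R F, chk slots T c none R F = true →
      ∀ M, Valid slots R F M → F.length + M.length ≤ T) ∧
    (∀ a j R F, chk slots T c (some (a, j)) R F = true →
      ∀ i b, j ≤ i → R[i]? = some b → fits slots (a + b) = true →
        ∀ M, Valid slots (R.eraseIdx i) ((a + b) :: F) M →
          ((a + b) :: F).length + M.length ≤ T) := by
  induction c with
  | leaf D u v =>
    refine ⟨fun R F h M hM => ?_, fun a j R F h => ?_⟩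
    · simp only [chk] at h
      exact leaf_sound slots T R F D u v h M hM
    · simp [chk] at h
  | nil =>
    refine ⟨fun R F h => ?_, fun a j R F h i b hji hb => ?_⟩
    · simp [chk] at h
    · simp only [chk, decide_eq_true_eq] at h
      have : R[i]? = none := List.getElem?_eq_none (by omega)
      rw [this] at hb
      exact absurd hb (by simp)
  | cons hd tl ihh iht =>
    refine ⟨fun R F h => ?_, fun a j R F h i b hji hb hfit M hM => ?_⟩
    · simp [chk] at h
    · simp only [chk, Bool.and_eq_true] at h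
      obtain ⟨h1, h2⟩ := h
      rcases Nat.eq_or_lt_of_le hji with rfl | hlt
      · rw [hb] at h1
        simp only [hfit, Bool.not_true, Bool.false_or] at h1
        exact ihh.1 _ _ h1 M hM
      · exact iht.2 a (j + 1) R F h2 i b hlt hb hfit M hM
  | node idx skip kids ihs ihk =>
    refine ⟨fun R F h M hM => ?_, fun a j R F h => ?_⟩
    · simp only [chk, Bool.and_eq_true, decide_eq_true_eq] at h
      obtain ⟨⟨h1, h2⟩, h3⟩ := h
      exact hnode R F idx h1 (ihs.1 _ _ h2)
        (fun i b hb hfit => ihk.2 _ 0 _ _ h3 i b (Nat.zero_le _) hb hfit) M hM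
    · simp [chk] at h

theorem coe_eq_cons_eraseIdx (R : List ℕ) (i : ℕ) (b : ℕ) (h : R[i]? = some b) :
    (R : Multiset ℕ) = b ::ₘ ((R.eraseIdx i : List ℕ) : Multiset ℕ) := by
  obtain ⟨hi, hb⟩ := List.getElem?_eq_some_iff.mp h
  have hp := List.getElem_cons_eraseIdx_perm (l := R) hi
  rw [hb] at hp
  rw [Multiset.cons_coe, Multiset.coe_eq_coe]
  exact hp.symm

/-- The node step: branching on the positive at position `idx` (unused, or paired with one of
the other positives). -/
theorem node_step17 (slots : List ℕ) (T : ℕ) (R F : List ℕ) (idx : ℕ) (hidx : idx < R.length)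
    (hskip : ∀ M, Valid slots (R.eraseIdx idx) F M → F.length + M.length ≤ T)
    (hkids : ∀ (i b : ℕ), (R.eraseIdx idx)[i]? = some b →
        fits slots (R.getD idx 0 + b) = true →
        ∀ M, Valid slots ((R.eraseIdx idx).eraseIdx i) ((R.getD idx 0 + b) :: F) M →
          ((R.getD idx 0 + b) :: F).length + M.length ≤ T) :
    ∀ M, Valid slots R F M → F.length + M.length ≤ T := by
  intro M hM
  have hfitM := fits_of_valid slots R F M hM
  obtain ⟨hMR, A, hA1, hA2, hA3⟩ := hM
  have hRa : (R : Multiset ℕ) = R.getD idx 0 ::ₘ ((R.eraseIdx idx : List ℕ) : Multiset ℕ) := by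
    apply coe_eq_cons_eraseIdx
    rw [List.getD_eq_getElem _ _ hidx]
    exact List.getElem?_eq_getElem hidx
  generalize R.getD idx 0 = a at hRa hkids
  generalize R.eraseIdx idx = R' at hRa hkids hskip
  by_cases ha : a ∈ M.flatMap fun x => [x.1, x.2]
  · obtain ⟨x, hx, hax⟩ := List.mem_flatMap.mp ha
    have hperm := List.perm_cons_erase hx
    have hflat : ((M.flatMap fun x => [x.1, x.2] : List ℕ) : Multiset ℕ) =
        x.1 ::ₘ x.2 ::ₘ (((M.erase x).flatMap fun x => [x.1, x.2] : List ℕ) : Multiset ℕ) := by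
      rw [Multiset.coe_eq_coe.mpr (hperm.flatMap_right fun x => [x.1, x.2])]
      simp [List.flatMap_cons]
    have hsum : ((M.map fun x => x.1 + x.2 : List ℕ) : Multiset ℕ) =
        (x.1 + x.2) ::ₘ (((M.erase x).map fun x => x.1 + x.2 : List ℕ) : Multiset ℕ) := by
      rw [Multiset.coe_eq_coe.mpr (hperm.map fun x => x.1 + x.2)]
      simp
    have hlen : M.length = (M.erase x).length + 1 := by
      have := hperm.length_eq
      simpa using this
    obtain ⟨b, hab, hflat'⟩ : ∃ b, a + b = x.1 + x.2 ∧
        ((M.flatMap fun x => [x.1, x.2] : List ℕ) : Multiset ℕ) =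
          a ::ₘ b ::ₘ (((M.erase x).flatMap fun x => [x.1, x.2] : List ℕ) : Multiset ℕ) := by
      simp only [List.mem_cons, List.not_mem_nil, or_false] at hax
      rcases hax with h | h
      · exact ⟨x.2, by rw [h], by rw [h]; exact hflat⟩
      · exact ⟨x.1, by rw [h]; exact Nat.add_comm _ _,
          by rw [h, hflat]; exact Multiset.cons_swap _ _ _⟩
    rw [hflat', hRa] at hMR
    have hMR1 := (Multiset.cons_le_cons_iff _).mp hMR
    have hbR : b ∈ R' :=
      Multiset.mem_coe.mp (Multiset.mem_of_le hMR1 (Multiset.mem_cons_self _ _))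
    obtain ⟨i, hi⟩ := List.getElem?_of_mem hbR
    have hRb := coe_eq_cons_eraseIdx R' i b hi
    rw [hRb] at hMR1
    have hMR2 := (Multiset.cons_le_cons_iff _).mp hMR1
    have hfit : fits slots (a + b) = true := by rw [hab]; exact hfitM x hx
    have hvalid : Valid slots (R'.eraseIdx i) ((a + b) :: F) (M.erase x) := by
      refine ⟨hMR2, A, ?_, hA2, hA3⟩
      rw [hA1, hsum, hab, ← Multiset.cons_coe, Multiset.cons_add, Multiset.add_cons]
    have := hkids i b hi hfit (M.erase x) hvalid
    simp only [List.length_cons] at this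
    omega
  · apply hskip M
    refine ⟨?_, A, hA1, hA2, hA3⟩
    rw [hRa] at hMR
    exact (Multiset.le_cons_of_notMem (by simpa using ha)).mp hMR

/-- Soundness of the certificate checker: if `chk slots T cert none R F = true` then every valid
family of pairs `M` for the state `(R, F)` satisfies `|F| + |M| ≤ T`. -/
theorem chk_sound (slots : List ℕ) (T : ℕ) (cert : Cert) (R F : List ℕ)
    (h : chk slots T cert none R F = true) (M : List (ℕ × ℕ)) (hM : Valid slots R F M) :
    F.length + M.length ≤ T :=
  (chk_sound_aux slots T (fun R F idx hidx hs hk => node_step17 slots T R F idx hidx hs hk)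
    cert).1 R F h M hM

/-- With no fixed sums: at most `T` pairs. -/
theorem chk_sound_nil (slots : List ℕ) (T : ℕ) (cert : Cert) (R : List ℕ)
    (h : chk slots T cert none R [] = true) :
    ∀ M : List (ℕ × ℕ), Valid slots R [] M → M.length ≤ T := by
  intro M hM
  have := chk_sound slots T cert R [] h M hM
  simpa using this

end Vale.Agent.Helper7.P302
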