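import Vale.Agent.Helper7.P302.Defs3

/-!
# P302: explicit packings of the concrete instances into 18 bins (`OPT ≤ 18`)
-/

namespace Vale.Agent.Helper17.P302Upper

open Vale.Agent.Helper7.P302 Finset

/-- A packing check in natural numbers implies `IsPacking` for the scaled rational sizes. -/
theorem packing_of_nat (itemsN : List ℕ) (cap : ℕ) (hcap : 0 < cap) (n m : ℕ) (a : Fin n → ℚ)
    (ha : ∀ i, a i = (itemsN.getD i.1 0 : ℚ) / cap) (f : Fin n → Fin m)
    (h : ∀ b : Fin m, ∑ i ∈ univ.filter (fun i => f i = b), itemsN.getD i.1 0 ≤ cap) :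
    IsPacking a m f := by
  intro b
  have hc : (0 : ℚ) < (cap : ℚ) := by exact_mod_cast hcap
  have h1 : ∑ i ∈ univ.filter (fun i => f i = b), a i =
      ((∑ i ∈ univ.filter (fun i => f i = b), itemsN.getD i.1 0 : ℕ) : ℚ) / cap := by
    rw [Nat.cast_sum, Finset.sum_div]
    exact Finset.sum_congr rfl (fun i _ => ha i)
  rw [h1, div_le_one hc]
  exact_mod_cast h b

/-- The bin of each of the 50 items of the first instance. -/
def packL : List ℕ := [0, 1, 2, 3, 4, 5, 6, 7, 8, 9, 10, 11, 12, 13, 14, 2, 2, 3, 3, 4, 4, 5, 5,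
  6, 6, 7, 7, 8, 8, 9, 9, 10, 10, 11, 11, 12, 12, 13, 13, 14, 14, 17, 16, 16, 0, 1, 15, 15, 16,
  16]

/-- The bin of each of the 51 items of the third instance. -/
def packL3 : List ℕ := [0, 1, 2, 3, 4, 5, 6, 7, 8, 9, 10, 11, 12, 13, 14, 2, 2, 3, 3, 4, 4, 5, 5,
  6, 6, 7, 7, 8, 8, 9, 9, 10, 10, 11, 11, 12, 12, 13, 13, 14, 14, 17, 16, 16, 0, 1, 15, 15, 15,
  16, 16]

/-- The explicit assignment of the first instance to 18 bins. -/
def pack : Fin 50 → Fin 18 := fun i => Fin.ofNat 18 (packL.getD i.1 0)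

/-- The explicit assignment of the third instance to 18 bins. -/
def pack3 : Fin 51 → Fin 18 := fun i => Fin.ofNat 18 (packL3.getD i.1 0)

theorem pack_ok : ∀ b : Fin 18,
    ∑ i ∈ univ.filter (fun i => pack i = b), itemsL.getD i.1 0 ≤ 300000 := by decide

theorem pack3_ok : ∀ b : Fin 18,
    ∑ i ∈ univ.filter (fun i => pack3 i = b), itemsL3.getD i.1 0 ≤ 1950000 := by decide

/-- The first instance can be packed into 18 bins. -/
theorem isPacking_pack : IsPacking inst 18 pack :=
  packing_of_nat itemsL 300000 (by norm_num) 50 18 inst (fun i => by unfold inst; norm_num) pack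
    pack_ok

/-- The third instance can be packed into 18 bins. -/
theorem isPacking_pack3 : IsPacking inst3 18 pack3 :=
  packing_of_nat itemsL3 1950000 (by norm_num) 51 18 inst3 (fun i => by unfold inst3; norm_num)
    pack3 pack3_ok

theorem opt_le_inst : OPT inst ≤ 18 := Nat.sInf_le ⟨pack, isPacking_pack⟩

theorem opt_le_inst3 : OPT inst3 ≤ 18 := Nat.sInf_le ⟨pack3, isPacking_pack3⟩

end Vale.Agent.Helper17.P302Upper
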